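import Vale.Agent.P354XP.Props
import Vale.Agent.P354J.Sl

/-!
The frame of a metric: algebra of the symbols, and the relation for the frame.
-/

open scoped ContDiff
open Set Filter Topology Matrix

noncomputable section

namespace Vale.Agent.P354PR

open Vale.Agent.P354H (X3 pd)
open Vale.Agent.P354C (Ix)
open Vale.Agent.P354J
open Vale.Agent.P354XP

/-- The wave in the frame, and the leading terms of the perturbation of h and K. -/
def Bf (a : Ix → ℝ) : M3 := !![0, 0, 0; 0, a .a1, a .a2; 0, a .a2, -a .a1]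
def Bc (h : M3) (a : Ix → ℝ) : M3 := (Eh h)⁻¹ * Bf a * ((Eh h)⁻¹)ᵀ
def gam (h : M3) (a : Ix → ℝ) : M3 := Oh h ^ 2 • Bc h a
def kap (h : M3) (a : Ix → ℝ) : M3 := (Oh h / 2) • Bc h a

theorem Bf_tr (a : Ix → ℝ) : (Bf a)ᵀ = Bf a := by
  ext i j; fin_cases i <;> fin_cases j <;> rfl

theorem Bc_symm (h : M3) (a : Ix → ℝ) (i j : Fin 3) : Bc h a i j = Bc h a j i := by
  have : (Bc h a)ᵀ = Bc h a := by
    rw [Bc, transpose_mul, transpose_mul, transpose_transpose, Bf_tr, Matrix.mul_assoc]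
  exact (congrFun (congrFun this j) i)

theorem Bc_zero (h : M3) : Bc h 0 = 0 := by
  have : Bf 0 = 0 := by ext i j; fin_cases i <;> fin_cases j <;> simp [Bf]
  simp [Bc, this]

section alg

variable {h : M3} (hp : h.PosDef)
include hp

theorem O_pos : 0 < Oh h := Oh_pos (OO_of_posDef hp).2.1 hp.det_pos

theorem E_det : 0 < (Eh h).det :=
  let ⟨a, b, c⟩ := OO_of_posDef hp
  (det_Eh h).symm ▸ detE_pos a b c

theorem EC : Eh h * (Eh h)⁻¹ = 1 := mul_nonsing_inv _ (E_det hp).ne'.isUnit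
theorem CE : (Eh h)⁻¹ * Eh h = 1 := nonsing_inv_mul _ (E_det hp).ne'.isUnit

theorem hi_eq : h⁻¹ = (Oh h ^ 2)⁻¹ • ((Eh h)ᵀ * Eh h) := by
  obtain ⟨a, b, c⟩ := OO_of_posDef hp
  have e := congrArg (fun M => (Eh h)⁻¹ * M * Eh h) (Eh_on (sym_of_posDef hp) a b c)
  simp only [Matrix.mul_smul, Matrix.smul_mul, Matrix.mul_one, CE hp, ← Matrix.mul_assoc,
    Matrix.one_mul] at e
  refine inv_eq_right_inv ?_
  rw [Matrix.mul_smul, ← Matrix.mul_assoc, e, smul_smul,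
    inv_mul_cancel₀ (pow_ne_zero 2 (O_pos hp).ne'), one_smul]

theorem C_hi : ((Eh h)⁻¹)ᵀ * h⁻¹ = (Oh h ^ 2)⁻¹ • Eh h := by
  rw [hi_eq hp, Matrix.mul_smul, ← Matrix.mul_assoc, ← transpose_mul, EC hp, transpose_one,
    Matrix.one_mul]

theorem E_Bc (a : Ix → ℝ) : Eh h * Bc h a * (Eh h)ᵀ = Bf a := by
  rw [Bc, ← Matrix.mul_assoc, ← Matrix.mul_assoc, EC hp, Matrix.one_mul, Matrix.mul_assoc,
    ← transpose_mul, EC hp, transpose_one, Matrix.mul_one]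

theorem Bc_tt (a : Ix → ℝ) : (h⁻¹ * Bc h a).trace = 0 ∧ Bc h a *ᵥ (h⁻¹ *ᵥ e0) = 0 := by
  constructor
  · rw [hi_eq hp, Matrix.smul_mul, trace_smul, Matrix.mul_assoc, trace_mul_comm, E_Bc hp]
    simp [Bf, trace, Fin.sum_univ_three]
  · rw [mulVec_mulVec, Bc, Matrix.mul_assoc, C_hi hp, Matrix.mul_smul, smul_mulVec,
      Matrix.mul_assoc, ← mulVec_mulVec, ← mulVec_mulVec]
    have : Bf a *ᵥ (Eh h *ᵥ e0) = 0 := by
      ext i; fin_cases i <;> simp [Bf, Eh, e0, mulVec, dotProduct, Fin.sum_univ_three]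
    simp [this]

theorem det_le : h.det ≤ h 0 0 * dg h := by
  obtain ⟨a, b, -⟩ := OO_of_posDef hp
  have e : h 1 1 * (h 0 0 * dg h - h.det) = (h 1 1 * h 0 2 - h 1 2 * h 0 1) ^ 2 + dg h * h 0 1 ^ 2 := by
    rw [det_fin_three, dg, sym_of_posDef hp 1 0, sym_of_posDef hp 2 0, sym_of_posDef hp 2 1]; ring
  have : 0 ≤ h 1 1 * (h 0 0 * dg h - h.det) := by rw [e]; positivity
  linarith [(mul_nonneg_iff_of_pos_left a).1 this]

end alg

/-- The symbol of the Gauss-Weingarten connection. -/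
def gw (hi γ κ : M3) (i : Fin 3) : M4 :=
  blk 0 (κ i) (fun k => ∑ l, hi k l * κ i l)
    (of fun k j => ∑ l, hi k l * ((e0 i * γ j l + e0 j * γ i l - e0 l * γ i j) / 2))

/-- The symbol of the connection in the frame. -/
def gs (h : M3) (a : Ix → ℝ) (b : Fin 3) (c d : Fin 4) : ℝ :=
  ∑ i, Eh h b i * (blk (Oh h)⁻¹ 0 0 ((Eh h)⁻¹)ᵀ * gw h⁻¹ (gam h a) (kap h a) i *
    blk (Oh h) 0 0 (Eh h)ᵀ) c d

theorem gs0 {h : M3} (hp : h.PosDef) (a : Ix → ℝ) (b c : Fin 3) :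
    gs h a b c.succ 0 = Bf a b c / 2 := by
  have e : gs h a b c.succ 0 = Oh h * (Eh h * kap h a * (((Eh h)⁻¹)ᵀ * h⁻¹)ᵀ) b c := by
    simp only [gs, gw, Matrix.mul_apply, Fin.sum_univ_succ (n := 3), blk_00, blk_0s, blk_s0, blk_ss,
      Pi.zero_apply, Fin.sum_univ_three, transpose_apply]
    ring
  rw [e, C_hi hp, kap, transpose_smul, Matrix.mul_smul, Matrix.mul_smul, Matrix.smul_mul, E_Bc hp]
  have := (O_pos hp).ne'
  simp only [Matrix.smul_apply, smul_eq_mul]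
  field_simp

theorem E_col (h : M3) {b : Fin 3} (hb : b ≠ 0) : Eh h b 0 = 0 := by
  fin_cases b
  · exact absurd rfl hb
  all_goals rfl

theorem gs1 {h : M3} (hp : h.PosDef) (a : Ix → ℝ) {b c : Fin 3} (hb : b ≠ 0) (hc : c ≠ 0) :
    gs h a b c.succ 1 = Bf a b c / 2 := by
  have e : gs h a b c.succ (0 : Fin 3).succ =
      (Eh h b 0 * (Eh h * gam h a * (((Eh h)⁻¹)ᵀ * h⁻¹)ᵀ) 0 c +
        Eh h 0 0 * (Eh h * gam h a * (((Eh h)⁻¹)ᵀ * h⁻¹)ᵀ) b c -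
        (((Eh h)⁻¹)ᵀ * h⁻¹) c 0 * (Eh h * gam h a * (Eh h)ᵀ) b 0) / 2 := by
    simp only [gs, blk_conj_ss]
    simp only [gw, Matrix.mul_apply, blk_ss, Fin.sum_univ_three, transpose_apply, of_apply,
      show e0 0 = 1 from rfl, show e0 1 = 0 from rfl, show e0 2 = 0 from rfl]
    ring
  refine e.trans ?_
  rw [C_hi hp, gam, transpose_smul, Matrix.mul_smul, Matrix.mul_smul, Matrix.smul_mul, E_Bc hp]
  have := (O_pos hp).ne'
  simp only [Matrix.smul_apply, smul_eq_mul, E_col h hb, E_col h hc, show Eh h 0 0 = 1 from rfl]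
  field_simp
  ring

/-! ### The relation for the frame -/

/-- Pairs (h, K). -/
abbrev DD : Type := (X3 → M3) × (X3 → M3)

variable {P : Type} {t : Tri P X3 DD} {k : ℕ} {n : ℤ}

/-- The relation for matrices. -/
def LM (t : Tri P X3 DD) (k : ℕ) (n : ℤ) {ι κ : Type} (M : DD → X3 → Matrix ι κ ℝ) : Prop :=
  ∀ i j, t.L k n fun a x => M a x i j

/-- The hypotheses on the metric. -/
structure HD (t : Tri P X3 DD) (k : ℕ) (n : ℤ) : Prop where
  h : LM t k n fun a => a.1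
  pos : t.O.F.Ev fun r x => ((t.d r).1 x).PosDef
  det : t.O.F.B0 1 fun r x => ((t.d r).1 x).det⁻¹

theorem ldiv {Φ Ψ : DD → X3 → ℝ} (h : t.L k n Φ) (h' : t.L k n Ψ) (z : t.Ps Ψ) :
    t.L k n fun a x => Φ a x / Ψ a x :=
  (h.mul (h'.inv z.nz)).cast fun _ _ => (div_eq_mul_inv _ _).symm

theorem lhalf {Φ : DD → X3 → ℝ} (h : t.L k n Φ) : t.L k n fun a x => Φ a x / 2 :=
  (h.cmul (1 / 2)).cast fun _ _ => by ring

namespace HD

variable (D : HD t k n)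
include D

theorem ev {p : M3 → Prop} (h : ∀ H : M3, H.PosDef → p H) : t.O.F.Ev fun r x => p ((t.d r).1 x) :=
  Eventually.mono D.pos fun _ q x hx => h _ (q x hx)

theorem pdet : t.Ps fun a x => (a.1 x).det := ⟨D.ev fun _ h => h.det_pos, D.det⟩

theorem ldg : t.L k n fun a x => dg (a.1 x) :=
  (((D.h 1 1).mul (D.h 2 2)).sub ((D.h 1 2).mul (D.h 1 2))).cast fun _ _ => by rw [dg, sq]

theorem pdg : t.Ps fun a x => dg (a.1 x) :=
  D.pdet.of_le (D.h 0 0).bg.b0 (D.ev (p := fun H => 0 < dg H ∧ H.det ≤ H 0 0 * dg H)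
    fun _ h => ⟨(OO_of_posDef h).2.1, det_le h⟩)

theorem lq : t.L k n fun a x => (a.1 x).det / dg (a.1 x) := ldiv (Tri.l_det D.h) D.ldg D.pdg

theorem pq : t.Ps fun a x => (a.1 x).det / dg (a.1 x) :=
  D.pdet.of_le D.ldg.bg.b0 (D.ev (p := fun H => 0 < H.det / dg H ∧ H.det ≤ dg H * (H.det / dg H))
    fun _ h => ⟨div_pos h.det_pos (OO_of_posDef h).2.1,
      (mul_div_cancel₀ _ (OO_of_posDef h).2.1.ne').ge⟩)

theorem lO : t.L k n fun a x => Oh (a.1 x) := D.lq.rt D.pq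
theorem pO : t.Ps fun a x => Oh (a.1 x) := D.pq.rt D.lq
theorem ls : t.L k n fun a x => √(dg (a.1 x)) := D.ldg.rt D.pdg
theorem ps : t.Ps fun a x => √(dg (a.1 x)) := D.pdg.rt D.ldg

theorem ltr : t.L k n fun a x => a.1 x 1 1 + a.1 x 2 2 + 2 * √(dg (a.1 x)) :=
  ((D.h 1 1).add (D.h 2 2)).add (D.ls.cmul 2)

theorem ptr : t.Ps fun a x => a.1 x 1 1 + a.1 x 2 2 + 2 * √(dg (a.1 x)) :=
  D.ps.of_le Fr.b0_one (D.ev (p := fun H => 0 < H 1 1 + H 2 2 + 2 * √(dg H) ∧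
    √(dg H) ≤ 1 * (H 1 1 + H 2 2 + 2 * √(dg H))) fun H h => by
      obtain ⟨a, b, -⟩ := OO_of_posDef h
      exact ⟨tr_pos a b, by linarith [pos22 a b, Real.sqrt_nonneg (dg H)]⟩)

theorem lrt : t.L k n fun a x => rt (a.1 x) := D.ls.mul (D.ltr.rt D.ptr)
theorem prt : t.Ps fun a x => rt (a.1 x) := D.ps.mul (D.ptr.rt D.ltr)

theorem lb1 : t.L k n fun a x => bh1 (a.1 x) :=
  ldiv ((((D.h 2 2).mul (D.h 0 1)).sub ((D.h 1 2).mul (D.h 0 2))).cmul (-2)) D.ldg D.pdg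
theorem lb2 : t.L k n fun a x => bh2 (a.1 x) :=
  ldiv ((((D.h 1 1).mul (D.h 0 2)).sub ((D.h 1 2).mul (D.h 0 1))).cmul (-2)) D.ldg D.pdg
theorem l11 : t.L k n fun a x => ph11 (a.1 x) := ldiv (D.lO.mul ((D.h 2 2).add D.ls)) D.lrt D.prt
theorem l12 : t.L k n fun a x => ph12 (a.1 x) := (ldiv (D.lO.mul (D.h 1 2)) D.lrt D.prt).neg
theorem l22 : t.L k n fun a x => ph22 (a.1 x) := ldiv (D.lO.mul ((D.h 1 1).add D.ls)) D.lrt D.prt

theorem lE : LM t k n fun a x => Eh (a.1 x) := fun i j => by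
  have c := Tri.l_cst (n := n) D.lO.le
  fin_cases i <;> fin_cases j
  exacts [c 1, lhalf D.lb1, lhalf D.lb2, c 0, D.l11, D.l12, c 0, D.l12, D.l22]

theorem pE : t.Ps fun a x => (Eh (a.1 x)).det :=
  (D.pO.mul D.pO).of_le D.ls.bg.b0 (D.ev (p := fun H => 0 < (Eh H).det ∧
    Oh H * Oh H ≤ √(dg H) * (Eh H).det) fun H h => by
      obtain ⟨a, b, -⟩ := OO_of_posDef h
      refine ⟨E_det h, ?_⟩
      rw [det_Eh, detP_h a b, mul_div_cancel₀ _ (Real.sqrt_pos.2 b).ne', sq])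

theorem lC : LM t k n fun a x => (Eh (a.1 x))⁻¹ := Tri.l_inv D.lE D.pE.nz
theorem lhi : LM t k n fun a x => (a.1 x)⁻¹ := Tri.l_inv D.h D.pdet.nz

end HD

theorem LM.blk {c : DD → X3 → ℝ} {B : DD → X3 → M3} (hc : t.L k n c) (hB : LM t k n B) :
    LM t k n fun a x => blk (c a x) 0 0 (B a x) := fun i j => by
  refine Fin.cases ?_ (fun p => ?_) i <;> refine Fin.cases ?_ (fun q => ?_) j
  exacts [hc, Tri.l_cst hc.le 0, Tri.l_cst hc.le 0, hB p q]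

end Vale.Agent.P354PR
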