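import Vale.Agent.P354PR.Fr

/-!
The symbol of the initial values.
-/

open scoped ContDiff
open Set Filter Topology Matrix

noncomputable section

namespace Vale.Agent.P354PR

open Vale.Agent.P354H (X3 pd pdl)
open Vale.Agent.P354C (Ix tang Gam)
open Vale.Agent.P354J
open Vale.Agent.P354XP
open Vale.Agent.P354XB (Sa Pol)

variable {P : Type} {t : Tri P X3 DD} {k : ℕ} {n : ℤ} {α : P → X3 → Ix → ℝ}

theorem l_lin (T : (Ix → ℝ) →ₗ[ℝ] ℝ) {u : DD → X3 → Ix → ℝ} (h : ∀ i, t.L k n fun a x => u a x i) :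
    t.L k n fun a x => T (u a x) :=
  haveI : Nonempty Ix := ⟨.O⟩
  (Tri.L.sum fun i => (h i).cmul (T fun j => if i = j then 1 else 0)).cast fun a x => by
    rw [T.pi_apply_eq_sum_univ]; exact Finset.sum_congr rfl fun _ _ => mul_comm _ _

theorem r_lin (T : (Ix → ℝ) →ₗ[ℝ] ℝ) {u : DD → X3 → Ix → ℝ}
    (h : ∀ i, t.R k n (fun a x => u a x i) 0) : t.R k n (fun a x => T (u a x)) 0 :=
  haveI : Nonempty Ix := ⟨.O⟩
  ((Tri.R.sum fun i => (h i).cmul (T fun j => if i = j then 1 else 0)).cast fun a x => by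
    rw [T.pi_apply_eq_sum_univ]; exact Finset.sum_congr rfl fun _ _ => mul_comm _ _).sy'
      fun r x => by simp

theorem rhalf {Φ : DD → X3 → ℝ} {σ : Pr P X3} (h : t.R k n Φ σ) :
    t.R k n (fun a x => Φ a x / 2) fun r x => (1 / 2 : ℝ) • σ r x :=
  (h.cmul (1 / 2)).cast fun _ _ => by ring

theorem ev_gauge (E : X3 → M3) (S T : X3 → M4) (A : Fin 3 → X3 → M4) (b : Fin 3) (x : X3)
    (c d : Fin 4) : ev E (P354J.gauge S T A) b x c d =
      ∑ i, E x b i * ∑ q, (∑ p, T x c p * A i x p q) * S x q d +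
        ∑ p, T x c p * fd E b (fun y => S y p d) x := by
  simp only [ev, P354J.gauge, fd, Matrix.sum_apply, Matrix.smul_apply, Matrix.add_apply,
    Matrix.mul_apply, MD_apply, smul_eq_mul, mul_add, Finset.sum_add_distrib, Finset.mul_sum]
  rw [Finset.sum_comm (f := fun i p => E x b i * (T x c p * _))]
  simp only [mul_left_comm]

/-- The hypotheses of the second part. -/
structure SD (t : Tri P X3 DD) (k : ℕ) (n : ℤ) (α : P → X3 → Ix → ℝ) : Prop where
  he : t.O.F.e = P354H.e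
  ph : t.O.φ = fun _ x => x.1
  pos : t.O.F.Ev fun r x => ((t.d r).1 x).PosDef
  det : t.O.F.B0 1 fun r x => ((t.d r).1 x).det⁻¹
  h : ∀ i j, t.R (k + 2) n (fun a x => a.1 x i j) fun r x => (0, gam ((t.d r).1 x) (α r x) i j)
  K : ∀ i j, t.R (k + 1) (n + 1) (fun a x => a.2 x i j)
    fun r x => (kap ((t.d r).1 x) (α r x) i j, 0)

namespace SD

variable (D : SD t k n α)
include D

theorem hd : HD t (k + 2) n := ⟨fun i j => (D.h i j).l, D.pos, D.det⟩

theorem rpd {k' : ℕ} {m : ℤ} {Φ : DD → X3 → ℝ} {σ : Pr P X3} (h : t.R (k' + 1) m Φ σ) (i : Fin 3) :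
    t.R k' (m + 1) (fun a => pd i (Φ a)) fun r x => e0 i • Jr σ r x :=
  ((h.pd i).cast fun a x => by rw [D.he]; rfl).sy' fun r x => by
    have : t.O.ξ i r x = e0 i := by
      simp only [Os.ξ, P354XP.D, D.ph, D.he, fderiv_fst]
      fin_cases i <;> rfl
    rw [← this]; rfl

theorem rfd {k' : ℕ} {m : ℤ} {Φ : DD → X3 → ℝ} {σ : Pr P X3} (b : Fin 3)
    (hE : ∀ i, t.R k' (m + 1) (fun a x => Eh (a.1 x) b i) 0) (h : t.R (k' + 1) m Φ σ) :
    t.R k' (m + 1) (fun a => fd (fun y => Eh (a.1 y)) b (Φ a))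
      fun r x => Eh ((t.d r).1 x) b 0 • Jr σ r x :=
  (Tri.R.sum fun i => (hE i).mul0 (D.rpd h i)).sy' fun r x => by
    simp [Fin.sum_univ_three, e0]

theorem lS : LM t (k + 2) n fun a x => blk (Oh (a.1 x)) 0 0 (Eh (a.1 x))ᵀ :=
  LM.blk D.hd.lO fun i j => D.hd.lE j i

theorem lT : LM t (k + 2) n fun a x => blk (Oh (a.1 x))⁻¹ 0 0 ((Eh (a.1 x))⁻¹)ᵀ :=
  LM.blk (D.hd.lO.inv D.hd.pO.nz) fun i j => D.hd.lC j i

theorem rW (i : Fin 3) (c d : Fin 4) : t.R (k + 1) (n + 1)
    (fun a x => GW a.1 (fun y => (a.1 y)⁻¹) a.2 i x c d) fun r x =>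
      (gw ((t.d r).1 x)⁻¹ (gam ((t.d r).1 x) (α r x)) (kap ((t.d r).1 x) (α r x)) i c d, 0) := by
  have g := fun p q => ((D.hd.lhi p q).low (k + 1).le_succ).up
  refine Fin.cases ?_ (fun p => ?_) c <;> refine Fin.cases ?_ (fun q => ?_) d
  · exact Tri.r_cst (D.K 0 0).l.le 0
  · exact D.K i q
  · exact (Tri.R.sum fun l => (g p l).mul0 (D.K i l)).sy' fun r x => by
      simp [gw, blk_s0, Prod.ext_iff, Prod.fst_sum, Prod.snd_sum]
  · exact (Tri.R.sum fun l => (g p l).mul0 (rhalf (((D.rpd (D.h q l) i).add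
      (D.rpd (D.h i l) q)).sub (D.rpd (D.h i q) l)))).sy' fun r x => by
      simp only [gw, blk_ss, of_apply, Prod.ext_iff, Prod.fst_sum, Prod.snd_sum]
      refine ⟨Finset.sum_congr rfl fun l _ => ?_, Finset.sum_eq_zero fun l _ => ?_⟩
      · simp [Jr]; left; ring
      · simp [Jr]

theorem rG (b : Fin 3) (c d : Fin 4) : ∃ σ, t.R (k + 1) (n + 1) (fun a x => Gh a.1 a.2 b x c d) σ ∧
    (b ≠ 0 → ∀ r x, σ r x = (gs ((t.d r).1 x) (α r x) b c d, 0)) := by
  have E := fun i => ((D.hd.lE b i).low (k + 1).le_succ).up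
  have T := fun p q => ((D.lT p q).low (k + 1).le_succ).up
  have S := fun p q => ((D.lS p q).low (k + 1).le_succ).up
  choose s hs using D.lS
  refine ⟨_, ((Tri.R.sum fun i => (E i).mul0 (Tri.R.sum fun q => (Tri.R.sum fun p =>
    (T c p).mul0 (D.rW i p q)).mul0' (S q d))).add
    (Tri.R.sum fun p => (T c p).mul0 (D.rfd b E (hs p d)))).cast fun a x => ?_, fun hb r x => ?_⟩
  · exact (ev_gauge (fun y => Eh (a.1 y)) (S0 (fun y => Oh (a.1 y)) fun y => Eh (a.1 y))
      (T0 (fun y => Oh (a.1 y)) fun y => (Eh (a.1 y))⁻¹) (GW a.1 (fun y => (a.1 y)⁻¹) a.2)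
      b x c d).symm
  · simp only [Pi.add_apply, E_col _ hb, zero_smul, smul_zero, Finset.sum_const_zero, add_zero, gs,
      Matrix.mul_apply, Prod.ext_iff, Prod.fst_sum, Prod.snd_sum, Prod.smul_fst, Prod.smul_snd,
      smul_eq_mul, mul_zero, and_true]
    exact Finset.sum_congr rfl fun i _ => congrArg _ (Finset.sum_congr rfl fun q _ => mul_comm _ _)

theorem lU (i : Ix) : t.L (k + 1) (n + 1) fun a x => U1 a.1 a.2 x i := by
  have g : ∀ b c d, t.L (k + 1) (n + 1) fun a x => Gh a.1 a.2 b x c d :=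
    fun b c d => (D.rG b c d).imp fun _ h => h.1
  have u : ∀ {Φ}, t.L (k + 2) n Φ → t.L (k + 1) (n + 1) Φ := fun h => (h.low (by omega)).up.l
  cases i
  case O => exact u D.hd.lO
  case b1 => exact u D.hd.lb1
  case b2 => exact u D.hd.lb2
  case P11 => exact u D.hd.l11
  case P12 => exact u D.hd.l12
  case P21 => exact u D.hd.l12
  case P22 => exact u D.hd.l22
  case om => exact (g _ _ _).add (g _ _ _)
  case omb => exact ((g _ _ _).sub (g _ _ _)).neg
  case r0 => exact (g _ _ _).cmul 2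
  case r1 => exact g _ _ _
  case r2 => exact g _ _ _
  case A1 => exact ((g _ _ _).add (g _ _ _)).neg
  case A2 => exact ((g _ _ _).add (g _ _ _)).neg
  case B1 => exact (g _ _ _).sub (g _ _ _)
  case B2 => exact (g _ _ _).sub (g _ _ _)
  case p1 | p2 | X11 | X12 | X21 | X22 => exact lhalf ((g _ _ _).add (g _ _ _))
  case q1 | q2 | Y11 | Y12 | Y21 | Y22 => exact lhalf ((g _ _ _).sub (g _ _ _))
  all_goals exact Tri.l_cst (g 0 0 0).le 0

theorem rX {b c : Fin 3} (hb : b ≠ 0) (hc : c ≠ 0) :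
    t.R (k + 1) (n + 1) (fun a x => (Gh a.1 a.2 b x c.succ 0 + Gh a.1 a.2 b x c.succ 1) / 2)
      (fun r x => (Bf (α r x) b c / 2, 0)) ∧
    t.R (k + 1) (n + 1) (fun a x => (Gh a.1 a.2 b x c.succ 0 - Gh a.1 a.2 b x c.succ 1) / 2)
      fun _ _ => (0, 0) := by
  obtain ⟨σ, h, e⟩ := D.rG b c.succ 0
  obtain ⟨τ, h', e'⟩ := D.rG b c.succ 1
  refine ⟨(rhalf (h.add h')).sy ?_, (rhalf (h.sub h')).sy ?_⟩ <;>
    filter_upwards [D.pos] with r hp x hx <;>
    simp [e hb, e' hb, gs0 (hp x hx), gs1 (hp x hx) _ hb hc, Prod.ext_iff]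
  ring

theorem rD (s : Fin 3) {i : Ix} {σ : Pr P X3}
    (h : t.R (k + 1) (n + 1) (fun a x => U1 a.1 a.2 x i) σ) :
    t.R k (n + 1 + 1) (fun a x => DT (dsl (U1 a.1 a.2) x) s i)
      fun r x => cT s • Eh ((t.d r).1 x) s 0 • Jr σ r x :=
  ((D.rfd s (fun j => ((D.hd.lE s j).low (by omega)).up2) h).cmul (cT s)).cast fun a x => by
    rw [DT_dsl]; rfl

theorem rD0 {i : Ix} {f : Fn P X3}
    (h : t.R (k + 1) (n + 1) (fun a x => U1 a.1 a.2 x i) fun r x => (f r x, 0)) :
    t.R k (n + 1 + 1) (fun a x => DT (dsl (U1 a.1 a.2) x) 0 i) fun r x => (0, -2 * f r x) :=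
  (D.rD 0 h).sy' fun r x => by simp [cT, Eh, Jr]

theorem rZ {s : Fin 3} (hs : s ≠ 0) (u : Fin 3) (j l : Fin 4) :
    t.R k (n + 1 + 1) (fun a x => GT (DT (dsl (U1 a.1 a.2) x) s) u j l) 0 :=
  (r_lin (gtL u j l) fun i => by
    obtain ⟨σ, h⟩ := D.lU i
    exact (D.rD s h).sy' fun r x => by simp [E_col _ hs]).cast fun _ _ => gtL_apply _ _ _ _

theorem rR {s u : Fin 3} (hu : u ≠ 0) {j l : Fin 4} {σ : Pr P X3}
    (h : t.R k (n + 1 + 1) (fun a x => GT (DT (dsl (U1 a.1 a.2) x) s) u j l) σ) :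
    t.R k (n + 1 + 1) (fun a x => curT (U1 a.1 a.2 x) (dsl (U1 a.1 a.2) x) s u j l) σ := by
  have v := fun i => (D.lU i).low k.le_succ
  have g : ∀ s j l, t.L k (n + 1) fun a x => GT (U1 a.1 a.2 x) s j l :=
    fun s j l => (l_lin (gtL s j l) v).cast fun _ _ => gtL_apply _ _ _ _
  have tt : ∀ m, t.L k (n + 1) fun a x => TT (U1 a.1 a.2 x) s u m := fun m =>
    (Tri.L.sum fun y => (g s m y).cmul _).sub (Tri.L.sum fun y => (g u m y).cmul _)
  refine ((((h.sub (D.rZ hu s j l)).add ((Tri.L.sum fun m => (g s j m).mul (g u m l)).sub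
    (Tri.L.sum fun m => (g u j m).mul (g s m l))).up).sub
    (Tri.L.sum fun m => (tt m).mul (l_lin (gamL m j l) v)).up).cast fun a x => ?_).sy'
      fun r x => by simp
  rw [curT_eq, U1, WT_u1, Matrix.zero_apply, sub_zero]
  rfl

theorem rU (hp : ∀ᶠ r in t.O.F.l, Pol (α r)) (i : Ix) :
    t.R k (n + 1 + 1) (fun a x => U0 a.1 a.2 x i) fun r x => (0, α r x i) := by
  have n1 : (1 : Fin 3) ≠ 0 := by decide
  have n2 : (2 : Fin 3) ≠ 0 := by decide
  have z : ∀ {Φ σ}, i ≠ .a1 → i ≠ .a2 → t.R k (n + 1 + 1) Φ σ → (∀ r x, σ r x = 0) →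
      t.R k (n + 1 + 1) Φ fun r x => (0, α r x i) := fun h1 h2 h e =>
    h.sy (hp.mono fun r hp x _ => (e r x).trans (by rw [hp x i h1 h2]; rfl))
  have c := fun j l => D.rR n2 (D.rZ n1 2 j l)
  have x11 := D.rR (s := 0) (j := 1) (l := 2) n1
    ((D.rD0 (i := .X11) (D.rX n1 n1).1).cast fun _ _ => by rw [GT_1]; rfl)
  have x21 := D.rR (s := 0) (j := 1) (l := 3) n1
    ((D.rD0 (i := .X21) (D.rX n1 n2).1).cast fun _ _ => by rw [GT_1]; rfl)
  have x12 := D.rR (s := 0) (j := 1) (l := 2) n2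
    ((D.rD0 (i := .X12) (D.rX n2 n1).1).cast fun _ _ => by rw [GT_2]; rfl)
  have x22 := D.rR (s := 0) (j := 1) (l := 3) n2
    ((D.rD0 (i := .X22) (D.rX n2 n2).1).cast fun _ _ => by rw [GT_2]; rfl)
  have y11 := D.rR (s := 0) (j := 0) (l := 2) n1
    ((D.rD0 (i := .Y11) (D.rX n1 n1).2).cast fun _ _ => by rw [GT_1]; rfl)
  have y21 := D.rR (s := 0) (j := 0) (l := 3) n1
    ((D.rD0 (i := .Y21) (D.rX n1 n2).2).cast fun _ _ => by rw [GT_1]; rfl)
  have y12 := D.rR (s := 0) (j := 0) (l := 2) n2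
    ((D.rD0 (i := .Y12) (D.rX n2 n1).2).cast fun _ _ => by rw [GT_2]; rfl)
  have y22 := D.rR (s := 0) (j := 0) (l := 3) n2
    ((D.rD0 (i := .Y22) (D.rX n2 n2).2).cast fun _ _ => by rw [GT_2]; rfl)
  cases hi : isW i
  · refine z (by rintro rfl; exact absurd hi (by decide)) (by rintro rfl; exact absurd hi (by decide))
      (((D.lU i).low k.le_succ).up.cast fun a x => (u2_of _ _ hi).symm) fun _ _ => rfl
  · cases i
    case a1 => exact (rhalf (x22.sub x11)).sy' fun r x => by simp [Bf]; ring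
    case a2 => exact (rhalf (x12.add x21).neg).sy' fun r x => by simp [Bf]; ring
    case be1 => exact z (by decide) (by decide) (c _ _) fun _ _ => rfl
    case be2 => exact z (by decide) (by decide) (c _ _).neg fun _ _ => by simp
    case rho => exact z (by decide) (by decide) (rhalf (c _ _)) fun _ _ => by simp
    case sig => exact z (by decide) (by decide) (rhalf (c _ _)) fun _ _ => by simp
    case bb1 => exact z (by decide) (by decide) (c _ _).neg fun _ _ => by simp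
    case bb2 => exact z (by decide) (by decide) (c _ _) fun _ _ => rfl
    case ab1 => exact z (by decide) (by decide) (rhalf (y11.sub y22)) fun _ _ => by simp
    case ab2 => exact z (by decide) (by decide) (rhalf (y12.add y21)) fun _ _ => by simp
    all_goals exact absurd hi (by decide)

end SD

/-! ### The remainder in the anisotropic frame -/

theorem Dw_eq (r : P) : ∀ (w : List (Fin 3)) (f : Fn P X3),
    Fr.Dw P354H.e w f r = pdl w (f r)
  | [], _ => rfl
  | _ :: w, _ => Dw_eq r w _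

theorem cost (l : P → ℝ) (r : P) (x : X3) : ∀ w : List (Fin 3),
    (w.map fun i => if i = 0 then (pr l : Fn P X3) else 1).prod r x = l r ^ P354K.n0 w
  | [] => rfl
  | i :: w => by
    have := cost l r x w
    by_cases h : i = 0 <;> simp [P354K.n0, h, pr, pow_succ'] at this ⊢ <;> simp [this]

theorem rem {O : Os P X3} (he : O.F.e = P354H.e) (ph : O.φ = fun _ x => x.1)
    (hs : ∀ᶠ r in O.F.l, O.s r = O.A r / O.lam r) {f f'' g : Fn P X3}
    (h : O.Rel k 0 f f f'' fun r x => (0, g r x)) : ∃ N : ℕ, ∀ᶠ r in O.F.l, ∀ z ∈ O.F.U r,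
      Sa (O.lam r) k (fun x => f'' r x - f r x - O.A r * Real.sin (O.lam r * x.1) * g r x) z
        (O.A r * O.F.G r ^ N / O.lam r) := by
  obtain ⟨τ, a, b⟩ := h.ex
  let F : Fr P X3 := { O.F with
    c := fun i => if i = 0 then pr O.lam else 1
    ok := by
      filter_upwards [O.F.ok, O.ok] with r o o'
      refine ⟨o.1, o.2.1, o.2.2.1, fun i x _ => ?_⟩
      split_ifs
      · exact zero_le_one.trans o'.2.1
      · exact zero_le_one }
  have tr : ∀ {s u : Fn P X3}, O.F.T k s u → F.T k s u := fun hu =>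
    Fr.T.sub_fr (F := O.F) (F' := F) (π := id) tendsto_id rfl 1 (by
      filter_upwards [O.F.ok, O.ok] with r o o'
      refine ⟨subset_rfl, subset_rfl, (pow_one _).ge, fun i x _ => ?_⟩
      have : 1 ≤ F.c i r x := by
        simp only [F]
        split_ifs
        · exact o'.2.1
        · exact le_rfl
      rw [O.hc]
      exact one_le_mul_of_one_le_of_one_le (one_le_pow₀ (by linarith [o.2.2.1])) this) hu
  have w := Fr.t_trig (F := F) (ψ := pr O.lam * O.φ) Os.sm_ph (K := k) (fun i =>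
    (Fr.t_par (F := F) (s := F.c i) (a := fun r => O.lam r * e0 i) (Fr.B0.of_le (by
      filter_upwards [O.ok] with r o x _
      have := o.2.1
      fin_cases i <;> simp [F, e0, pr, abs_of_nonneg (zero_le_one.trans this)])) k).congr
        (Eventually.mono (Os.d_pr O.lam O.sm i) fun r e x hx => by
          refine Eq.trans ?_ (e x hx)
          simp only [Pi.mul_apply, pr, P354XP.D, ph, he, fderiv_fst]
          fin_cases i <;> rfl)) k.le_succ
  have s1 : F.T k (pr O.s) (pr O.s) := tr (Fr.t_par (a := O.s) Os.bss k)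
  obtain ⟨N, hN⟩ := ((tr b).add (s1.mulr (((tr a.a).mul1 w.1).add ((tr a.b).mul1 w.2)))).b.words
  refine ⟨N, ?_⟩
  filter_upwards [hN, hs] with r hN hs z hz v hv
  have := hN v hv z (by rw [show F.V = O.F.U from O.hV]; exact hz)
  rw [show F.e = P354H.e from he, Dw_eq, Pi.mul_apply, Pi.mul_apply, cost] at this
  refine le_of_eq_of_le (congrArg (fun u => |pdl v u z|) (funext fun x => ?_)) (this.trans_eq ?_)
  · simp [Os.W, Os.al, pr, p1, p2, si, co, ph, hs, div_eq_mul_inv]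
    ring
  · simp only [pr, hs, F]; ring

/-- PREP. -/
theorem prep : PREP := by
  refine ⟨gam, kap, fun h a i j => by simp [gam, kap, Bc_symm h a i j],
    fun h => by simp [gam, kap, Bc_zero], fun h a hp => by
      simp only [gam, kap, smul_mulVec, Matrix.mul_smul, trace_smul, (Bc_tt hp a).1, (Bc_tt hp a).2,
        smul_zero, and_self], ?_⟩
  intro P O h α he pos det
  refine ⟨fun k hk hh hα i j => ?_, fun k K h' K' ph hp _ hh hK => ?_⟩
  · let t : Tri P X3 DD := ⟨O, fun r => (h r, h r), fun r => (h r, h r), fun r => (h r, h r)⟩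
    have D : HD t k 0 := ⟨fun i j => ⟨0, Os.rel_base hk (hh i j)⟩, pos, det⟩
    have B : ∀ p q, O.F.T k 1 fun r x => Bf (α r x) p q := fun p q => by
      have c := Fr.t_cst (F := O.F) (k := k) 0
      fin_cases p <;> fin_cases q
      exacts [c, c, c, c, hα _, hα _, c, hα _, (hα _).neg]
    have C : O.F.T k 1 fun r x => Bc (h r x) (α r x) i j :=
      Fr.T.fsum fun q => (Fr.T.fsum fun p => (D.lC i p).bg.mul1 (B p q)).mul1 (D.lC j q).bg
    exact ⟨((D.lO.bg.mul1 D.lO.bg).mul1 C).cast (by funext r x; simp [gam, lf, t, sq]),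
      (lhalf D.lO).bg.mul1 C⟩
  · let t : Tri P X3 DD := ⟨O, fun r => (h r, K r), fun r => (h r, K r), fun r => (h' r, K' r)⟩
    have D : SD t k (-2) α := ⟨he, ph, pos, det, hh, hK⟩
    choose N hN using fun i => rem he ph (hp.mono fun _ h => h.2) (D.rU (hp.mono fun _ h => h.1) i)
    refine ⟨∑ i, N i, ?_⟩
    filter_upwards [eventually_all.2 hN, O.F.ok, O.ok] with r hN o o' z hz i v hv
    refine (hN i z hz v hv).trans ?_
    have := o'.2.1
    have := o'.2.2.1
    have := o.2.2.1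
    gcongr
    · linarith
    · exact Finset.single_le_sum (f := N) (fun _ _ => Nat.zero_le _) (Finset.mem_univ i)

end Vale.Agent.P354PR
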