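import Vale.Agent.P354YJ.Cls
import Vale.Agent.P354XA.Lid
import Vale.Agent.P354XY.Cv

/-!
UBD, first part: quantitative nondegeneracy and cones, families, smooth cut off functions.
-/

set_option maxSynthPendingDepth 3

open scoped ContDiff
open Set Filter Topology

noncomputable section

namespace Vale.Agent.P354PR

open Vale.Agent.P354n (R4)
open Vale.Agent.P354 (Bilin)
open Vale.Agent.P354XD (tb)
open Vale.Agent.P354XE
open Vale.Agent.P354YI
open Vale.Agent.P354YO (Sb oj_pb)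

/-- Quantitative nondegeneracy of B, and positivity of f on the future cone. -/
structure Qp (K : ℝ) (B : R4 → R4 → ℝ) (f : R4 →L[ℝ] ℝ) (Y : R4) : Prop where
  one : 1 ≤ K
  nd : ∀ v, ∃ w, ‖w‖ ≤ 1 ∧ ‖v‖ ≤ K * B v w
  cone : ∀ w, B w w ≤ 0 → B w Y ≤ 0 → ‖w‖ ≤ K * f w

variable {K K' : ℝ} {B B' : R4 → R4 → ℝ} {f f' : R4 →L[ℝ] ℝ} {Y Y' : R4}

theorem le_up {x y : ℝ} (x0 : 0 ≤ x) (h1 : 1 ≤ K) (h : x ≤ K * y) (e : K ≤ K') : x ≤ K' * y :=
  h.trans (mul_le_mul_of_nonneg_right e (nonneg_of_mul_nonneg_right (x0.trans h) (by linarith)))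

theorem Qp.mono (h : Qp K B f Y) (e : K ≤ K') : Qp K' B f Y :=
  ⟨h.one.trans e, fun v => (h.nd v).imp fun _ k => ⟨k.1, le_up (norm_nonneg _) h.one k.2 e⟩,
    fun w a b => le_up (norm_nonneg _) h.one (h.cone w a b) e⟩

theorem Qp.scale (h : Qp K B f Y) (e : ∀ w, 0 ≤ f w → f w ≤ 2 * f' w) : Qp (2 * K) B f' Y :=
  ⟨by linarith [h.one], (h.mono (by linarith [h.one])).nd, fun w a b => by
    have k := h.cone w a b
    have := e w (nonneg_of_mul_nonneg_right ((norm_nonneg _).trans k) (by linarith [h.one]))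
    nlinarith [h.one]⟩

theorem qp_of (K1 : 1 ≤ K) (hB : Bilin B) (hs : ∀ a b, B a b = B b a)
    (bd : ∀ v w, |B v w| ≤ K * (‖v‖ * ‖w‖)) (ker : ∀ v, f v = 0 → ‖v‖ ^ 2 ≤ K * B v v) {Z : R4}
    (z1 : ‖Z‖ ≤ K) (z2 : 1 ≤ K * f Z) (z3 : K * B Z Z ≤ -1) (y1 : 0 < f Y) (y2 : B Y Y < 0) :
    Qp (8 * K ^ 6) B f Y := by
  have K0 : 0 < K := by linarith
  have z0 : 0 < f Z := pos_of_mul_pos_left (b := K) (by linarith) K0.le
  have key : ∀ v, ∃ s n : ℝ, |s| ≤ K * |f v| ∧ s ^ 2 ≤ n ∧ ‖v‖ ^ 2 ≤ 2 * K ^ 2 * n ∧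
      n ≤ K * B v v + 2 * K * (|s| * |B v Z|) := fun v => by
    obtain ⟨s, hs'⟩ : ∃ s, s = f v / f Z := ⟨_, rfl⟩
    have k := ker (v + (-s) • Z) (by rw [map_add, map_smul, hs', smul_eq_mul]; field_simp; ring)
    simp only [hB.add_left, hB.add_right, hB.smul_left, hB.smul_right, hs Z v] at k
    have n1 : ‖v‖ ≤ ‖v + (-s) • Z‖ + |s| * K := by
      have := norm_add_le (v + (-s) • Z) (s • Z)
      rw [neg_smul, neg_add_cancel_right, norm_smul, ← neg_smul] at this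
      exact this.trans (by gcongr; exact le_rfl)
    refine ⟨s, ‖v + (-s) • Z‖ ^ 2 + s ^ 2, ?_, le_add_of_nonneg_left (sq_nonneg _), ?_, ?_⟩
    · rw [hs', abs_div, abs_of_pos z0, div_le_iff₀ z0]
      nlinarith [abs_nonneg (f v)]
    · have := pow_le_pow_left₀ (norm_nonneg _) n1 2
      have e : 1 ≤ K ^ 2 := one_le_pow₀ K1
      nlinarith [sq_nonneg (‖v + (-s) • Z‖ - |s| * K), sq_abs s,
        mul_le_mul_of_nonneg_right e (sq_nonneg ‖v + (-s) • Z‖)]
    · have := neg_abs_le (s * B v Z)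
      rw [abs_mul] at this
      nlinarith [mul_le_mul_of_nonneg_left z3 (sq_nonneg s)]
  have p : ∀ i j : ℕ, i ≤ j → K ^ i ≤ K ^ j := fun i j => pow_le_pow_right₀ K1
  refine ⟨by linarith [p 0 6 (by omega)], fun v => ?_, fun w a b => ?_⟩
  · rcases eq_or_ne v 0 with rfl | v0
    · exact ⟨0, by simp, by rw [← zero_smul ℝ (0 : R4), hB.smul_left]; simp⟩
    have n0 := norm_pos_iff.2 v0
    obtain ⟨s, n, -, k2, k3, k4⟩ := key v
    rcases le_or_gt n (2 * (K * B v v)) with c | c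
    · refine ⟨‖v‖⁻¹ • v, by simp [norm_smul, n0.ne'], le_up (K := 4 * K ^ 3) n0.le
        (by linarith [p 0 3 (by omega)]) ?_ (by linarith [p 3 6 (by omega), pow_pos K0 6])⟩
      rw [hB.smul_right, mul_left_comm, le_inv_mul_iff₀ n0]
      nlinarith [mul_le_mul_of_nonneg_left c (sq_nonneg K)]
    · have n1 : 0 ≤ n := (sq_nonneg s).trans k2
      have c1 : |s| * ‖v‖ ≤ 2 * K * n := le_of_sq_le_sq (by
        rw [mul_pow, sq_abs]
        nlinarith [mul_le_mul k2 k3 (sq_nonneg _) n1, sq_nonneg (K * n)]) (by positivity)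
      have s0 : 0 < |s| := abs_pos.2 fun e => by
        rw [e, abs_zero, zero_mul] at k4
        nlinarith [mul_pos n0 n0, mul_pos K0 K0]
      have c2 : ‖v‖ ≤ 8 * K ^ 2 * |B v Z| := le_of_mul_le_mul_left (by nlinarith) s0
      refine ⟨(SignType.sign (B v Z) / K : ℝ) • Z, ?_, le_up (K := 8 * K ^ 3) n0.le
        (by linarith [p 0 3 (by omega)]) ?_ (by linarith [p 3 6 (by omega)])⟩
      · rw [norm_smul, Real.norm_eq_abs, abs_div, abs_of_pos K0, div_mul_eq_mul_div, div_le_one K0]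
        refine (mul_le_of_le_one_left (norm_nonneg _) ?_).trans z1
        rcases lt_trichotomy (B v Z) 0 with e | e | e <;> simp [e]
      · rw [hB.smul_right, div_mul_eq_mul_div, sign_mul_self]
        exact c2.trans_eq (by field_simp)
  · have f0 : 0 ≤ f w := by
      by_contra! k
      obtain ⟨s, hs'⟩ : ∃ s, s = -f w / f Y := ⟨_, rfl⟩
      have s0 : 0 < s := hs' ▸ div_pos (neg_pos.2 k) y1
      have := ker (w + s • Y) (by rw [map_add, map_smul, hs', smul_eq_mul]; field_simp; ring)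
      simp only [hB.add_left, hB.add_right, hB.smul_left, hB.smul_right, hs Y w] at this
      have := nonneg_of_mul_nonneg_right ((sq_nonneg _).trans this) K0
      nlinarith [mul_pos s0 (mul_pos s0 (neg_pos.2 y2)), mul_nonneg s0.le (neg_nonneg.2 b)]
    obtain ⟨s, n, k1, -, k3, k4⟩ := key w
    rw [abs_of_nonneg f0] at k1
    have k5 : |B w Z| ≤ K * (‖w‖ * K) := (bd w Z).trans (by gcongr)
    have k6 : n ≤ 2 * K * (K * f w * (K * (‖w‖ * K))) := by
      have := mul_le_mul k1 k5 (abs_nonneg _) (by positivity)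
      nlinarith [mul_nonneg K0.le (neg_nonneg.2 a)]
    rcases (norm_nonneg w).eq_or_lt with e | e
    · rw [← e]; positivity
    · refine le_of_mul_le_mul_left ?_ e
      nlinarith [mul_le_mul_of_nonneg_left k6 (sq_nonneg K), mul_nonneg e.le f0, pow_pos K0 6]

theorem Qp.push (h : Qp K B f Y) (hB : Bilin B) {L L' : R4 →L[ℝ] R4} {C : ℝ} (C1 : 1 ≤ C)
    (n1 : ∀ v, ‖L v‖ ≤ C * ‖v‖) (li : ∀ v, L (L' v) = v) (ri : ∀ v, L' (L v) = v)
    (e : ∀ v w, B' v w = B (L' v) (L' w)) (ef : ∀ v, f' v = f (L' v)) (eY : L' Y' = Y) :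
    Qp (C ^ 2 * K) B' f' Y' := by
  have C0 : 0 < C := by linarith
  have n2 : ∀ v, ‖v‖ ≤ C * ‖L' v‖ := fun v => by simpa only [li] using n1 (L' v)
  refine ⟨one_le_mul_of_one_le_of_one_le (one_le_pow₀ C1) h.one, fun v => ?_, fun w a b => ?_⟩
  · obtain ⟨w, w1, w2⟩ := h.nd (L' v)
    refine ⟨C⁻¹ • L w, ?_, ?_⟩
    · rw [norm_smul, norm_inv, Real.norm_of_nonneg C0.le, inv_mul_le_iff₀ C0]
      exact (n1 w).trans (by gcongr)
    · rw [e, map_smul, ri, hB.smul_right]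
      exact ((n2 v).trans (mul_le_mul_of_nonneg_left w2 C0.le)).trans_eq (by field_simp)
  · rw [e] at a b
    have k := (n2 w).trans (mul_le_mul_of_nonneg_left (h.cone _ a (eY ▸ b)) C0.le)
    rw [ef]
    exact le_up (norm_nonneg _) (one_le_mul_of_one_le_of_one_le C1 h.one) (k.trans_eq
      (mul_assoc _ _ _).symm) (by nlinarith [mul_nonneg C0.le (sub_nonneg.2 C1), h.one])

section family
variable {J : Type} {N : ℕ} {x : J → R4} {g g' : J → Tw} {Y Y' : J → R4} {τ τ' : J → R4 → ℝ}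

theorem oj_cases {V : Type} [NormedAddCommGroup V] [NormedSpace ℝ V] {F : J → R4 → V} (P : J → Prop)
    (h1 : Oj N (fun j : {j // P j} => x j) (fun j => F j) 1)
    (h2 : Oj N (fun j : {j // ¬P j} => x j) (fun j => F j) 1) : Oj N x F 1 := by
  obtain ⟨C, -, hC⟩ := h1.bd
  obtain ⟨C', -, hC'⟩ := h2.bd
  refine .of1 (B := max (C * 1) (C' * 1)) (fun j => ?_) fun j => ?_ <;> by_cases k : P j
  exacts [h1.sm ⟨j, k⟩, h2.sm ⟨j, k⟩, (hC ⟨j, k⟩).mono le_rfl (le_max_left _ _),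
    (hC' ⟨j, k⟩).mono le_rfl (le_max_right _ _)]

/-- A fixed smooth function of parameters and the point. -/
theorem oj_par {Z V : Type} [NormedAddCommGroup Z] [NormedSpace ℝ Z] [NormedAddCommGroup V]
    [NormedSpace ℝ V] {F : Z × R4 → V} {S : Set (Z × R4)} (hS : IsCompact S)
    (hF : ∀ z ∈ S, ContDiffAt ℝ ∞ F z) {z : J → Z} (hx : ∀ j, (z j, x j) ∈ S) :
    Oj N x (fun j y => F (z j, y)) 1 :=
  Oj.comp (f := fun j y => (z j, y)) (fun _ => contDiffAt_const.prodMk contDiffAt_id) N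
    ((Oj.cst (ContinuousLinearMap.inr ℝ Z R4)).congr' fun _ y =>
      (hasFDerivAt_prodMk_right _ y).fderiv) (Oj.fix hS hF hx)

/-- Uniform bounds for a family. -/
structure Fm (N : ℕ) (x : J → R4) (g : J → Tw) (Y : J → R4) (τ : J → R4 → ℝ) : Prop where
  sb : ∀ j, Sb (g j) (x j)
  bd : Oj N x (fun j => tb (g j)) 1
  tm : Oj 2 x τ 1
  qp : ∃ K, ∀ j, Qp K (g j (x j)) (fderiv ℝ (τ j) (x j)) (Y j)

theorem Fm.cases (P : J → Prop)
    (h1 : Fm N (fun j : {j // P j} => x j) (fun j => g j) (fun j => Y j) fun j => τ j)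
    (h2 : Fm N (fun j : {j // ¬P j} => x j) (fun j => g j) (fun j => Y j) fun j => τ j) :
    Fm N x g Y τ := by
  obtain ⟨K, hK⟩ := h1.qp
  obtain ⟨K', hK'⟩ := h2.qp
  refine ⟨fun j => ?_, oj_cases P h1.bd h2.bd, oj_cases P h1.tm h2.tm, max K K', fun j => ?_⟩ <;>
    by_cases k : P j
  exacts [h1.sb ⟨j, k⟩, h2.sb ⟨j, k⟩, (hK ⟨j, k⟩).mono (le_max_left _ _),
    (hK' ⟨j, k⟩).mono (le_max_right _ _)]

theorem Fm.push {φ : J → R4 → R4} (h : Fm N (fun j => φ j (x j)) g Y τ)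
    (hs : ∀ j, ContDiffAt ℝ ∞ (φ j) (x j)) (hd : ∀ m, Oj m x (fun j => fderiv ℝ (φ j)) 1)
    {L : J → R4 →L[ℝ] R4} {C : ℝ} (C1 : 1 ≤ C) (n1 : ∀ j v, ‖L j v‖ ≤ C * ‖v‖)
    (li : ∀ j v, L j (fderiv ℝ (φ j) (x j) v) = v) (ri : ∀ j v, fderiv ℝ (φ j) (x j) (L j v) = v)
    (e : ∀ j, g' j =ᶠ[𝓝 (x j)] pb (φ j) (g j)) (eτ : ∀ j, τ' j =ᶠ[𝓝 (x j)] fun y => τ j (φ j y))
    (eY : ∀ j, fderiv ℝ (φ j) (x j) (Y' j) = Y j) : Fm N x g' Y' τ' := by
  obtain ⟨K, hK⟩ := h.qp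
  refine ⟨fun j => ((h.sb j).pull (hs j)).congr (e j), (oj_pb hs (hd N) h.sb h.bd).congr fun j =>
    (e j).mono fun y hy => by unfold tb; rw [hy], (Oj.comp hs 2 (hd _) h.tm).congr eτ, _,
    fun j => (hK j).push (h.sb j).bl.self_of_nhds C1 (n1 j) (li j) (ri j)
      (fun v w => by rw [(e j).self_of_nhds]; rfl) (fun v => ?_) (eY j)⟩
  rw [(eτ j).fderiv_eq, (fd_comp (h.tm.sm j) (hs j)).self_of_nhds]
  rfl

theorem Fm.val (s : ∀ j, Sb (g j) (x j)) (h : Oj N x (fun j => tb (g j)) 1) :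
    ∃ C, ∀ j v w, |g j (x j) v w| ≤ C * (‖v‖ * ‖w‖) := by
  obtain ⟨C, -, hC⟩ := P354YO.bd_of_oj s h
  exact ⟨C * 1, fun j v w => by simpa using hC j 0 (Nat.zero_le _) v w⟩

end family

/-- A smooth regularised positive part. -/
theorem ex_pos : ∃ ρ ρ' : ℝ → ℝ, ContDiff ℝ ∞ ρ ∧ (∀ x ≤ 0, ρ x = 0) ∧ (∀ x ≥ 1, ρ' x = 1) ∧ ∀ x,
    HasDerivAt ρ (ρ' x) x ∧ 0 ≤ ρ' x ∧ ρ' x ≤ 1 ∧ x - 1 ≤ ρ x ∧ 0 ≤ ρ x ∧ ρ x ≤ |x| := by
  have c := Real.smoothTransition.continuous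
  have d : ∀ x, HasDerivAt (fun u => ∫ t in (0 : ℝ)..u, Real.smoothTransition t)
      (Real.smoothTransition x) x := fun x => (c.integral_hasStrictDerivAt 0 x).hasDerivAt
  have z : ∀ x ≤ 0, ∫ t in (0 : ℝ)..x, Real.smoothTransition t = 0 := fun x hx => by
    rw [intervalIntegral.integral_congr (g := fun _ => 0) fun t ht =>
      Real.smoothTransition.zero_of_nonpos (ht.2.trans (max_le le_rfl hx))]
    simp
  have p : ∀ x, 0 ≤ ∫ t in (0 : ℝ)..x, Real.smoothTransition t := fun x => (le_total x 0).elim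
    (fun hx => (z x hx).ge) fun hx =>
      intervalIntegral.integral_nonneg hx fun t _ => Real.smoothTransition.nonneg t
  refine ⟨_, _, contDiff_infty_iff_deriv.2 ⟨fun x => (d x).differentiableAt, ?_⟩, z,
    fun x => Real.smoothTransition.one_of_one_le, fun x => ⟨d x, Real.smoothTransition.nonneg x,
      Real.smoothTransition.le_one x, ?_, p x, ?_⟩⟩
  · rw [show deriv _ = _ from funext fun u => (d u).deriv]
    exact Real.smoothTransition.contDiff
  · rcases le_total x 1 with hx | hx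
    · linarith [p x]
    · rw [← intervalIntegral.integral_add_adjacent_intervals (c.intervalIntegrable 0 1)
        (c.intervalIntegrable 1 x), intervalIntegral.integral_congr (a := 1) (g := fun _ => 1)
        fun t ht => Real.smoothTransition.one_of_one_le ((le_min le_rfl hx).trans ht.1)]
      simpa using p 1
  · simpa using (le_abs_self _).trans (intervalIntegral.norm_integral_le_of_norm_le_const
      (a := 0) (b := x) (C := 1) fun t _ => (Real.norm_of_nonneg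
        (Real.smoothTransition.nonneg t)).trans_le (Real.smoothTransition.le_one t))

/-- A smooth bounded primitive of the weight. -/
theorem ex_prim {s : ℝ} (hs : 1 < s) : ∃ (G : ℝ → ℝ) (C : ℝ), ContDiff ℝ ∞ G ∧
    ∀ u, HasDerivAt G (√(1 + u ^ 2) ^ (-s)) u ∧ 0 ≤ G u ∧ G u ≤ C := by
  obtain ⟨G, C, -, h⟩ := P354XA.exists_prim hs
  refine ⟨G, C, contDiff_infty_iff_deriv.2 ⟨fun x => (h x).1.differentiableAt, ?_⟩, h⟩
  rw [show deriv G = _ from funext fun u => (h u).1.deriv]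
  exact ((contDiff_const.add (contDiff_id.pow 2)).sqrt fun u => by positivity).rpow_const_of_ne
    fun u => by positivity

end Vale.Agent.P354PR
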