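import Vale.Agent.P354PR.U1

/-!
UBD, second part: the far zone of an end.
-/

set_option maxSynthPendingDepth 3

open scoped ContDiff
open Set Filter Topology

noncomputable section

namespace Vale.Agent.P354PR

open Vale.Agent.P354n (R4)
open Vale.Agent.P354 (Bilin)
open Vale.Agent.P354I (rm rp)
open Vale.Agent.P354R (Del)
open Vale.Agent.P354RC (bs cv sum_bs)
open Vale.Agent.P354XD (tb)
open Vale.Agent.P354XE
open Vale.Agent.P354XA
open Vale.Agent.P354YI
open Vale.Agent.P354YO (Sb tb_ap)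

/-- The components of the part of v which is tangent to the sphere. -/
def oc (i : Fin 3) (y v : R4) : ℝ := ip (Om i y) v / rd y ^ 2

/-- The coefficients of the rotations in the decomposition of v. -/
def cf (M a : ℝ) (b : Fin 3 → ℝ) (i : Fin 3) (y v : R4) : ℝ :=
  oc i y v - (if i = 2 then 2 * a / Del M a (rd y) * dr y v else 0) -
    (v.1 - lo1 M a (rd y) * dr y v) * b i

theorem dec (M a : ℝ) (b : Fin 3 → ℝ) {y : R4} (h : rd y ≠ 0) (v : R4) :
    v = dr y v • Lo M a y + (v.1 - lo1 M a (rd y) * dr y v) • (eT + ∑ i, b i • Om i y) +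
      ∑ i, cf M a b i y v • Om i y := by
  have k := rd_sq y
  simp only [ip] at k
  ext <;> simp [Fin.sum_univ_three, Om, cf, oc, Lo, lo1, eT, dr_eq, ip] <;> field_simp
  · ring
  · linear_combination v.2.1 * k
  · linear_combination v.2.2.1 * k
  · linear_combination v.2.2.2 * k

theorem wd_app (M a : ℝ) (α : List (Fin 5)) (i : Fin 5) (f : R4 → ℝ) :
    wd M a (α ++ [i]) f = wd M a α (wd M a [i] f) := by
  induction α with
  | nil => rfl
  | cons k α ih => simp only [List.cons_append, wd, ih]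

section family
variable {J : Type} {N : ℕ} {x : J → R4} {M a : J → ℝ} {M0 a0 ε ρ R : ℝ}

/-- The points and the parameters stay in a compact set far out. -/
structure Fo (x : J → R4) (M a : J → ℝ) (M0 a0 ε R ρ : ℝ) : Prop where
  e : |a0| + 2 * ε < M0
  hR : 2 * (M0 + ε) < R
  hM : ∀ j, |M j - M0| ≤ ε ∧ |a j - a0| ≤ ε
  hx : ∀ j, R ≤ rd (x j) ∧ ‖x j‖ ≤ ρ

theorem oj_mul {f g : J → R4 → ℝ} (h : Oj N x f 1) (h' : Oj N x g 1) :
    Oj N x (fun j y => f j y * g j y) 1 := h.smull h'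

variable (h : Fo x M a M0 a0 ε R ρ)
include h

theorem Fo.par {V : Type} [NormedAddCommGroup V] [NormedSpace ℝ V] {F : (ℝ × ℝ) × R4 → V}
    (hF : ∀ z : (ℝ × ℝ) × R4, |z.1.2| < z.1.1 → rp z.1.1 z.1.2 < rd z.2 → xs z.2 ≠ 0 →
      ContDiffAt ℝ ∞ F z) : Oj N x (fun j y => F ((M j, a j), y)) 1 :=
  oj_par (S := (Icc (M0 - ε) (M0 + ε) ×ˢ Icc (a0 - ε) (a0 + ε)) ×ˢ
    (Metric.closedBall 0 ρ ∩ {y | R ≤ rd y})) ((isCompact_Icc.prod isCompact_Icc).prod
      ((isCompact_closedBall _ _).inter_right (isClosed_le continuous_const rd_cont)))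
    (fun z hz => by
      obtain ⟨⟨⟨m1, m2⟩, m3, m4⟩, -, m5⟩ := hz
      have k : |z.1.2| < z.1.1 := abs_lt.2 ⟨by linarith [h.e, neg_abs_le a0],
        by linarith [h.e, le_abs_self a0]⟩
      obtain ⟨-, k1, k2, k3, -⟩ := hor k
      have k4 : rp z.1.1 z.1.2 < rd z.2 := by linarith [h.hR, show R ≤ rd z.2 from m5]
      exact hF z k k4 (P354YR.xs_ne (by linarith)))
    fun j => by
      obtain ⟨m1, m2⟩ := h.hM j
      rw [abs_le] at m1 m2
      exact ⟨⟨⟨by linarith [m1.1], by linarith [m1.2]⟩, by linarith [m2.1], by linarith [m2.2]⟩,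
        mem_closedBall_zero_iff.2 (h.hx j).2, (h.hx j).1⟩

theorem Fo.ne (j : J) : ∀ᶠ y in 𝓝 (x j), rd y ≠ 0 := rd_cont.continuousAt.eventually_ne (ne_of_gt
  (by linarith [h.e, h.hR, (h.hx j).1, abs_nonneg a0, (abs_nonneg _).trans (h.hM j).1]))

theorem Fo.rd : Oj N x (fun _ => rd) 1 :=
  h.par (F := fun z => P354XE.rd z.2) fun _ _ _ k => P354YR.s_rd contDiffAt_snd k

theorem Fo.ri : Oj N x (fun _ y => (P354XE.rd y)⁻¹) 1 :=
  h.par (F := fun z => (P354XE.rd z.2)⁻¹) fun _ _ _ k =>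
    (P354YR.s_rd contDiffAt_snd k).inv (norm_ne_zero_iff.2 k)

theorem Fo.dr (v : R4) : Oj N x (fun _ y => dr y v) 1 :=
  h.par (F := fun z => P354XE.dr z.2 v) fun _ _ _ k => P354YR.s_dr contDiffAt_snd k v

theorem Fo.Om (i : Fin 3) : Oj N x (fun _ => Om i) 1 :=
  h.par (F := fun z => P354XE.Om i z.2) fun _ _ _ _ => by
    fin_cases i <;> simp only [P354XE.Om] <;> (try simp) <;> fun_prop

theorem Fo.di : Oj N x (fun j y => (Del (M j) (a j) (P354XE.rd y))⁻¹) 1 :=
  h.par (F := fun z => (Del z.1.1 z.1.2 (P354XE.rd z.2))⁻¹) fun z k1 k2 k => by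
    have r := P354YR.s_rd (Q := (ℝ × ℝ) × R4) contDiffAt_snd k
    refine ContDiffAt.inv ?_ ?_
    · exact ((r.pow 2).sub ((contDiffAt_const.mul contDiffAt_fst.fst).mul r)).add
        (contDiffAt_fst.snd.pow 2)
    · rw [P354YR.Del_eq k1]
      exact (mul_pos (sub_pos.2 k2) (sub_pos.2 ((P354YR.rm_lt k1).trans k2))).ne'

theorem Fo.oa : Oj N x (fun j _ => a j) 1 := h.par (F := fun z => z.1.2) fun _ _ _ _ => by fun_prop

theorem Fo.lo1 : Oj N x (fun j y => lo1 (M j) (a j) (P354XE.rd y)) 1 :=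
  ((oj_mul (oj_mul (.cst 2) ((oj_mul h.rd h.rd).add (oj_mul h.oa h.oa))) h.di).sub (.cst 1)).congr'
    fun _ _ => by simp only [P354XA.lo1, sq, div_eq_mul_inv]

theorem Fo.Lo : Oj N x (fun j => Lo (M j) (a j)) 1 :=
  ((h.lo1.pair (h.ri.smull (h.par (F := fun z => z.2.2) fun _ _ _ _ => by fun_prop))).add
    ((oj_mul (oj_mul (.cst 2) h.oa) h.di).smull (h.Om 2))).congr' fun _ _ => rfl

theorem Fo.gin {u w : J → R4 → R4} (hu : Oj N x u 1) (hw : Oj N x w 1) :
    Oj N x (fun j y => gin (M j) (a j) y (u j y) (w j y)) 1 :=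
  (((h.par (F := fun z => tb (P354XE.gin z.1.1 z.1.2) z.2) fun _ _ _ k =>
    ContDiffAt.sum fun _ _ => ContDiffAt.sum fun _ _ => (P354YR.s_gin contDiffAt_snd k
      contDiffAt_fst.fst contDiffAt_fst.snd _ _).smul contDiffAt_const).apl hu).apl hw).congr'
    fun _ _ => (tb_ap (gin_bil _ _ _) _ _).symm

theorem Fo.mu (v : R4) :
    Oj N x (fun j y => v.1 - P354XA.lo1 (M j) (a j) (P354XE.rd y) * P354XE.dr y v) 1 :=
  (Oj.cst _).sub (oj_mul h.lo1 (h.dr v))

theorem Fo.cf {b : J → Fin 3 → R4 → ℝ} (hb : ∀ i, Oj N x (fun j => b j i) 1) (i : Fin 3) (v : R4) :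
    Oj N x (fun j y => cf (M j) (a j) (fun i => b j i y) i y v) 1 := by
  have c : Oj N x (fun _ y => oc i y v) 1 := h.par (F := fun z => oc i z.2 v) fun z _ _ k => by
    refine ContDiffAt.div ?_ ((P354YR.s_rd contDiffAt_snd k).pow 2)
      (pow_ne_zero 2 (norm_ne_zero_iff.2 k))
    fin_cases i <;> simp only [P354XE.Om, ip] <;> (try simp) <;> fun_prop
  refine (c.sub ?_).sub (oj_mul (h.mu v) (hb i))
  split_ifs
  exacts [oj_mul (oj_mul (oj_mul (.cst 2) h.oa) h.di) (h.dr v), .cst 0]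

theorem Fo.vf (i : Fin 5) : Oj N x (fun j => vf (M j) (a j) i) 1 := by
  fin_cases i
  exacts [.cst eT, h.rd.smull h.Lo, h.Om 0, h.Om 1, h.Om 2]

/-- From words to jets. -/
theorem Fo.wd {c : ℝ} (n : ℕ) : ∀ f : J → R4 → ℝ, (∀ j, ContDiffAt ℝ ∞ (f j) (x j)) →
    (∀ j α, α.length ≤ n → |wd (M j) (a j) α (f j) (x j)| ≤ c) → Oj n x f 1 := by
  have z : ∀ f : J → R4 → ℝ, (∀ j, ContDiffAt ℝ ∞ (f j) (x j)) →
      (∀ j, |f j (x j)| ≤ c) → Oj 0 x f 1 := fun f s b =>
    .zero s (fun _ => zero_le_one) ⟨c, by simpa using b⟩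
  induction n with
  | zero => exact fun f s b => z f s fun j => b j [] le_rfl
  | succ n ih =>
    intro f s b
    have k : ∀ i, Oj n x (fun j => P354XE.wd (M j) (a j) [i] (f j)) 1 := fun i =>
      ih _ (fun j => (at_fd (s j)).clm_apply ((h.vf (N := 0) i).sm j)) fun j α e => by
        rw [← wd_app]; exact b j _ (by simpa using e)
    have o : ∀ i : Fin 3, Oj n x (fun j y => fderiv ℝ (f j) y (P354XE.Om i y)) 1 := fun i => by
      fin_cases i
      exacts [k 2, k 3, k 4]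
    refine (z f s fun j => b j [] (Nat.zero_le _)).succ ((Oj.sum Finset.univ (fun _ => zero_le_one)
      fun μ _ => (((oj_mul (oj_mul (h.dr (bs μ)) h.ri) (k 1)).add (oj_mul (h.mu (bs μ)) (k 0))).add
        (Oj.sum Finset.univ (fun _ => zero_le_one) fun i _ => oj_mul
          (h.cf (b := fun _ _ _ => 0) (fun _ => .cst 0) i (bs μ)) (o i))).smull
            (.cst (cv μ))).congr fun j => (h.ne j).mono fun y hy => ?_)
    refine ContinuousLinearMap.ext fun v => ?_
    conv_lhs => rw [← sum_bs v]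
    simp only [map_sum, map_smul, sum_apply, smul_apply,
      smul_eq_mul]
    refine Finset.sum_congr rfl fun μ _ => ?_
    rw [mul_comm]
    congr 1
    conv_lhs => rw [dec (M j) (a j) (fun _ => 0) hy (bs μ)]
    simp only [P354XE.wd, P354XE.vf, map_add, map_smul, map_sum, smul_eq_mul, zero_smul,
      Finset.sum_const_zero, add_zero, Matrix.cons_val_zero, Matrix.cons_val_one]
    rw [mul_assoc, inv_mul_cancel_left₀ hy]

variable {s δ : ℝ} {g : J → Tw} {β : J → Fin 3 → R4 → ℝ}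

/-- From the estimates Far to the jets of the components. -/
theorem Fo.far (sb : ∀ j, Sb (g j) (x j)) (sy : ∀ j, ∀ᶠ y in 𝓝 (x j), ∀ v w, g j y v w = g j y w v)
    (s0 : 0 ≤ s) (d0 : 0 ≤ δ) (R1 : 1 ≤ R)
    (hF : ∀ j, Far (M j) (a j) s δ ε N (g j) (β j) (x j)) :
    Oj N x (fun j => Nf (β j)) 1 ∧ Oj N x (fun j => tb (g j)) 1 := by
  obtain ⟨C, -, hC⟩ := (h.rd (N := 0)).val
  have e0 := fun j => (abs_nonneg _).trans (h.hM j).1
  have u1 := fun j => (uw_le s0 (M j) (a j) (x j)).2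
  have sm : ∀ j {u w : R4 → R4}, ContDiffAt ℝ ∞ u (x j) → ContDiffAt ℝ ∞ w (x j) →
      ContDiffAt ℝ ∞ (fun y => g j y (u y) (w y)) (x j) := fun j u w hu hw =>
    (((sb j).cd.clm_apply hu).clm_apply hw).congr_of_eventuallyEq
      ((sb j).bl.mono fun _ e => (tb_ap e _ _).symm)
  have hβ : ∀ i, Oj N x (fun j => β j i) 1 := fun i => h.wd (c := ε) N _ (fun j => (hF j).smooth i)
    fun j α e => (((hF j).shift i).1 α e).1.trans (mul_le_of_le_one_right (e0 j) (u1 j))
  have hN : Oj N x (fun j => Nf (β j)) 1 := (Oj.cst eT).add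
    (Oj.sum Finset.univ (fun _ => zero_le_one) fun i _ => (hβ i).smull (h.Om i))
  have T : Oj N x (fun _ _ => eT) 1 := .cst eT
  have sw : ∀ {u w : J → R4 → R4}, Oj N x (fun j y => g j y (u j y) (w j y)) 1 →
      Oj N x (fun j y => g j y (w j y) (u j y)) 1 := fun k =>
    k.congr fun j => (sy j).mono fun _ e => e _ _
  have LL : Oj N x (fun j y => g j y (P354XE.Lo (M j) (a j) y) (P354XE.Lo (M j) (a j) y)) 1 :=
    (Oj.cst 0).congr fun j => (hF j).gauge.mono fun _ e => e.1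
  have LO : ∀ i, Oj N x (fun j y => g j y (P354XE.Lo (M j) (a j) y) (P354XE.Om i y)) 1 := fun i =>
    ((h.wd N _ (fun j => (sm j (h.Lo (N := 0) |>.sm j) ((h.Om (N := 0) i).sm j)).sub
      ((h.gin h.Lo (h.Om (N := 0) i)).sm j)) fun j α e => ((hF j).la i α e).1).add
      (h.gin h.Lo (h.Om i))).congr' fun _ _ => (sub_add_cancel _ _).symm
  have LN : Oj N x (fun j y => g j y (P354XE.Lo (M j) (a j) y) (Nf (β j) y)) 1 :=
    ((h.gin h.Lo T).add (Oj.sum Finset.univ (fun _ => zero_le_one) fun i _ =>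
      oj_mul (hβ i) (LO i))).congr fun j => ((hF j).gauge.and (sb j).bl).mono fun _ e => by
        simp only [Nf, Fin.sum_univ_three, e.2.add_right, e.2.smul_right, e.1.2]
  have NN : Oj N x (fun j y => g j y (Nf (β j) y) (Nf (β j) y)) 1 :=
    ((h.wd (c := ε * (1 + C)) N (fun j => ftt (M j) (a j) (g j) (β j))
      (fun j => (sm j (hN.sm j) (hN.sm j)).sub ((h.gin T T).sm j)) fun j α e =>
        ((hF j).tt α e).1.trans (mul_le_mul_of_nonneg_left (by
          have := hC j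
          simp only [Pi.one_apply, mul_one, Real.norm_eq_abs] at this
          linarith [le_abs_self (P354XE.rd (x j)), mul_le_of_le_one_right (rd_nonneg (x j)) (u1 j)])
          (e0 j))).add (h.gin T T)).congr' fun _ _ => (sub_add_cancel _ _).symm
  have NO : ∀ i, Oj N x (fun j y => g j y (Nf (β j) y) (P354XE.Om i y)) 1 := fun i =>
    ((oj_mul (h.wd (c := ε * 2) N _ (fun j => ((sm j (hN.sm j) ((h.Om (N := 0) i).sm j)).sub
      ((h.gin T (h.Om i)).sm j)).div (h.rd (N := 0) |>.sm j) (h.ne j).self_of_nhds) fun j α e =>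
        ((hF j).ta i α e).1.trans (mul_le_mul_of_nonneg_left (by
          have := Real.rpow_le_one_of_one_le_of_nonpos (R1.trans (h.hx j).1) (neg_nonpos.2 d0)
          unfold wt
          linarith [(uw_le d0 (M j) (a j) (x j)).2]) (e0 j))) h.rd).add (h.gin T (h.Om i))).congr
      fun j => (h.ne j).mono fun _ e => by
        simp only [Pi.div_apply, div_mul_cancel₀ _ e, sub_add_cancel]
  have OO : ∀ i k, Oj N x (fun j y => g j y (P354XE.Om i y) (P354XE.Om k y)) 1 := fun i k =>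
    ((oj_mul (h.wd N _ (fun j => ((sm j ((h.Om (N := 0) i).sm j) ((h.Om (N := 0) k).sm j)).sub
      ((h.gin (h.Om i) (h.Om (N := 0) k)).sm j)).div ((h.rd (N := 0) |>.sm j).pow 2)
        (pow_ne_zero 2 (h.ne j).self_of_nhds)) fun j α e => ((hF j).aa i k α e).1)
      (oj_mul h.rd h.rd)).add (h.gin (h.Om i) (h.Om k))).congr fun j => (h.ne j).mono fun _ e => by
        simp only [Pi.div_apply, ← sq, div_mul_cancel₀ _ (pow_ne_zero 2 e), sub_add_cancel]
  have ex : ∀ {u : J → R4 → R4} (v : R4),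
      Oj N x (fun j y => g j y (P354XE.Lo (M j) (a j) y) (u j y)) 1 →
      Oj N x (fun j y => g j y (Nf (β j) y) (u j y)) 1 →
      (∀ i, Oj N x (fun j y => g j y (P354XE.Om i y) (u j y)) 1) →
      Oj N x (fun j y => g j y v (u j y)) 1 := fun v k1 k2 k3 =>
    (((oj_mul (h.dr v) k1).add (oj_mul (h.mu v) k2)).add (Oj.sum Finset.univ
      (fun _ => zero_le_one) fun i _ => oj_mul (h.cf hβ i v) (k3 i))).congr fun j =>
      ((h.ne j).and (sb j).bl).mono fun y e => by
        conv_lhs => rw [dec (M j) (a j) (fun i => β j i y) e.1 v]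
        simp only [Nf, Fin.sum_univ_three, e.2.add_left, e.2.smul_left]
  refine ⟨hN, Oj.sum _ T.nn fun μ _ => Oj.sum _ T.nn fun ν _ => Oj.smull ?_ (.cst _)⟩
  exact ex (u := fun _ _ => bs ν) _ (sw (ex _ LL (sw LN) fun i => sw (LO i)))
    (sw (ex _ LN NN fun i => sw (NO i))) fun i => sw (ex _ (LO i) (NO i) fun k => OO k i)

end family

end Vale.Agent.P354PR
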