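import Vale.Agent.P354PR.U2

/-!
UBD, third part: the time function of an end and the uniform bounds on an end.
-/

set_option maxSynthPendingDepth 3

open scoped ContDiff
open Set Filter Topology Matrix

noncomputable section

namespace Vale.Agent.P354PR

open Vale.Agent.P354n (R4)
open Vale.Agent.P354 (Bilin)
open Vale.Agent.P354I (rm rp)
open Vale.Agent.P354XD (tb)
open Vale.Agent.P354XE
open Vale.Agent.P354XA
open Vale.Agent.P354YI
open Vale.Agent.P354YO (Sb)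
open Vale.Agent.P354YR (XI)

variable {M a s δ ε k K R C : ℝ} {N : ℕ} {g : Tw} {β : Fin 3 → R4 → ℝ} {p v Y : R4}
  {G ρ ρ' : ℝ → ℝ}

theorem far_ker (h : Far M a s δ ε N g β p) (hB : Bilin (g p)) (hs : ∀ a b, g p a b = g p b a)
    (ha : |a| < M) (s0 : 0 ≤ s) (d0 : 0 ≤ δ) (e0 : 0 ≤ ε) (e1 : ε * (M + 1) ≤ 1 / 60)
    (hr : 20 * (M + 1) ≤ rd p) (k0 : 0 ≤ k) (k1 : k * (M + 1) ≤ rd p / 20)
    (k2 : 3 / 2 + ε * (1 + rd p * uw M a p ^ (-s)) ≤ 19 / 10 * k) (K1 : 1 ≤ K) (kK : k ≤ K)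
    (nL : ‖Lo M a p‖ ≤ K) (nN : ‖Nf β p‖ ≤ K) (nO : ∀ i, ‖Om i p‖ ≤ K)
    (hv : dr p v = -(k * (v.1 - lo1 M a (rd p) * dr p v))) : ‖v‖ ^ 2 ≤ 20 * K ^ 4 * g p v v := by
  have M0 : 0 < M := (abs_nonneg a).trans_lt ha
  have r0 : 0 < rd p := by linarith
  obtain ⟨LO, LN, NN, NO⟩ := far_val h hB ha s0 d0 e0 e1 hr
  obtain ⟨c, ev, hc'⟩ := decomp M a r0.ne' β v
  generalize v.1 - lo1 M a (rd p) * dr p v = μ at *
  have WW := ang_le (a := a) hB hs M0.le r0 (ε := ε) (by nlinarith) (fun i j => by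
    have k := (h.aa i j [] (Nat.zero_le _)).1
    simp only [wd] at k
    rwa [abs_div, abs_sq, div_le_iff₀ (pow_pos r0 2)] at k) rfl hc'
  have g0 : 0 ≤ ∑ i, |c i| := Finset.sum_nonneg fun _ _ => abs_nonneg _
  have key := far_alg (μ := μ) (NN := g p (Nf β p) (Nf β p)) k0 LN
    ((mul_le_mul_of_nonneg_left (sum_le hB c LO) k0).trans
    (by linarith only [mul_le_mul_of_nonneg_right k1 g0])) (by linarith only [NN, k2])
    (sum_le hB c NO) WW
  rw [hv] at ev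
  have n3 : ‖∑ i, c i • Om i p‖ ≤ K * ∑ i, |c i| := by
    rw [Finset.mul_sum]
    exact norm_sum_le_of_le _ fun i _ => by
      rw [norm_smul, mul_comm]; exact mul_le_mul_of_nonneg_right (nO i) (abs_nonneg _)
  have n1 : ‖-(k * μ) • Lo M a p‖ ≤ K * |μ| * K := by
    rw [norm_smul, norm_neg, Real.norm_eq_abs, abs_mul, abs_of_nonneg k0]
    gcongr
  have n2 : ‖μ • Nf β p‖ ≤ |μ| * K := by rw [norm_smul]; gcongr; exact le_rfl
  have n4 : ‖v‖ ≤ K ^ 2 * (2 * |μ| + ∑ i, |c i|) := by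
    have := (norm_add₃_le.trans (add_le_add (add_le_add n1 n2) n3)).trans' (congrArg _ ev).le
    nlinarith [mul_nonneg (mul_nonneg (sub_nonneg.2 K1) (zero_le_one.trans K1)) (abs_nonneg μ),
      mul_nonneg (mul_nonneg (sub_nonneg.2 K1) (zero_le_one.trans K1)) g0]
  have e : 2 / 5 * μ ^ 2 + 1 / 5 * (rd p * ∑ i, |c i|) ^ 2 ≤ g p v v := key.trans_eq (by
    generalize ∑ i, c i • Om i p = W at *
    rw [ev]
    simp only [hB.add_left, hB.add_right, hB.smul_left, hB.smul_right, h.gauge.self_of_nhds.1,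
      hs W (Lo M a p), hs W (Nf β p), hs (Nf β p) (Lo M a p)]
    ring)
  have n5 := pow_le_pow_left₀ g0 (le_mul_of_one_le_left g0 (by linarith : 1 ≤ rd p)) 2
  have n6 : (2 * |μ| + ∑ i, |c i|) ^ 2 ≤ 20 * g p v v := by
    nlinarith [sq_nonneg (2 * |μ| - ∑ i, |c i|), sq_abs μ]
  calc _ ≤ (K ^ 2 * (2 * |μ| + ∑ i, |c i|)) ^ 2 := pow_le_pow_left₀ (norm_nonneg _) n4 2
    _ = K ^ 4 * (2 * |μ| + ∑ i, |c i|) ^ 2 := by ring
    _ ≤ K ^ 4 * (20 * g p v v) := by gcongr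
    _ = _ := by ring

/-- The time function in the chart of the far estimates. -/
def tf (G ρ : ℝ → ℝ) (ε R M a : ℝ) (x : R4) : ℝ :=
  x.1 + ε * (ρ (rd x - (R + 1)) * G (x.1 - psi M a (rd x)))

/-- The properties of the two auxiliary functions. -/
structure Aux (s C : ℝ) (G ρ ρ' : ℝ → ℝ) : Prop where
  sG : ContDiff ℝ ∞ G
  hG : ∀ u, HasDerivAt G (√(1 + u ^ 2) ^ (-s)) u ∧ 0 ≤ G u ∧ G u ≤ C
  sρ : ContDiff ℝ ∞ ρ
  zero : ∀ x ≤ 0, ρ x = 0
  one : ∀ x ≥ 1, ρ' x = 1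
  hρ : ∀ x, HasDerivAt ρ (ρ' x) x ∧ 0 ≤ ρ' x ∧ ρ' x ≤ 1 ∧ x - 1 ≤ ρ x ∧ 0 ≤ ρ x ∧ ρ x ≤ |x|

theorem tf_fd (A : Aux s C G ρ ρ') (ha : |a| < M) (s0 : 0 ≤ s) (e0 : 0 ≤ ε)
    (e2 : ε * C ≤ 1 / 20) (e3 : ε * (R + 3) ≤ 1 / 5)
    (hR : 82 * (M + 1) ≤ R) (hr : R + 1 ≤ rd p) : ∃ U B, (∀ v, fderiv ℝ (tf G ρ ε R M a) p v =
      U * dr p v + B * (v.1 - lo1 M a (rd p) * dr p v)) ∧ 1 ≤ U ∧ 1 ≤ B ∧ B / U ≤ 1 + ε * rd p ∧
      3 / 2 + ε * (1 + rd p * uw M a p ^ (-s)) ≤ 19 / 10 * (B / U) := by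
  obtain ⟨M0, -, -, h3, -⟩ := hor ha
  have r0 : 0 < rd p := by linarith
  have d1 := ((rd_cd (n := 1) r0.ne').differentiableAt one_ne_zero).hasFDerivAt
  have d0' := hasFDerivAt_fst (𝕜 := ℝ) (p := p)
  have d := d0'.add ((((A.hρ _).1.comp_hasFDerivAt _ (d1.sub_const (R + 1))).mul
    ((A.hG _).1.comp_hasFDerivAt _ (d0'.sub ((psi_deriv ha (r := rd p)
      (by linarith)).comp_hasFDerivAt _ d1)))).const_mul ε)
  obtain ⟨m0, m1⟩ := uw_le s0 M a p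
  obtain ⟨-, p0, p1, p2, p3, p4⟩ := A.hρ (rd p - (R + 1))
  obtain ⟨-, g0, g1⟩ := A.hG (ur M a p)
  obtain ⟨l1, l2⟩ := lo1_mem ha (r := rd p) (by linarith)
  rw [abs_of_nonneg (by linarith)] at p4
  obtain ⟨U, hA⟩ : ∃ U, U = lo1 M a (rd p) + ε * (ρ' (rd p - (R + 1)) * G (ur M a p)) := ⟨_, rfl⟩
  obtain ⟨B, hB⟩ : ∃ B, B = 1 + ε * (ρ (rd p - (R + 1)) * uw M a p ^ (-s)) := ⟨_, rfl⟩
  have A1 : 1 ≤ U := by linarith only [hA, l1, mul_nonneg e0 (mul_nonneg p0 g0)]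
  have A2 : U ≤ 11 / 10 := by
    linarith only [hA, l2, e2, mul_le_mul_of_nonneg_left ((mul_le_of_le_one_left g0 p1).trans g1) e0]
  have B1 : 1 ≤ B := by linarith only [hB, mul_nonneg e0 (mul_nonneg p3 m0.le)]
  have B2 : B ≤ 1 + ε * rd p := by
    have : ρ (rd p - (R + 1)) * uw M a p ^ (-s) ≤ rd p :=
      (mul_le_of_le_one_right p3 m1).trans (by linarith only [p4, hR, M0])
    linarith only [hB, mul_le_mul_of_nonneg_left this e0]
  have B3 : ε * (rd p * uw M a p ^ (-s)) ≤ B - 1 + ε * (R + 2) := by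
    have : rd p * uw M a p ^ (-s) ≤ ρ (rd p - (R + 1)) * uw M a p ^ (-s) + (R + 2) := by
      linarith only [mul_le_mul_of_nonneg_right p2 m0.le,
        mul_le_of_le_one_right (show 0 ≤ R + 2 by linarith only [hR, M0]) m1]
    linarith only [hB, mul_le_mul_of_nonneg_left this e0]
  have k2 : 17 / 19 * B ≤ B / U := by
    rw [le_div_iff₀ (by linarith only [A1])]; nlinarith only [A2, B1]
  refine ⟨U, B, fun v => ?_, A1, B1, (div_le_self (by linarith only [B1]) A1).trans B2,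
    by linarith only [k2, B3, B1, e3]⟩
  rw [show fderiv ℝ (tf G ρ ε R M a) p = _ from d.fderiv]
  simp [rd_fd r0.ne', hA, hB, uw, ur_eq]
  ring

theorem far_qp (A : Aux s C G ρ ρ') (ha : |a| < M) (s0 : 0 ≤ s) (d0 : 0 ≤ δ) (e0 : 0 ≤ ε)
    (e1 : ε * (M + 1) ≤ 1 / 60) (e2 : ε * C ≤ 1 / 20) (e3 : ε * (R + 3) ≤ 1 / 5)
    (hR : 82 * (M + 1) ≤ R) (hr : R + 1 ≤ rd p) (hB : Bilin (g p)) (hs : ∀ a b, g p a b = g p b a)
    (hY : g p Y Y < 0) (hL : g p Y (Lo M a p) < 0) (h : Far M a s δ ε N g β p)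
    (rK : 1 + rd p ≤ K) (nL : ‖Lo M a p‖ ≤ K) (nN : ‖Nf β p‖ ≤ K) (nO : ∀ i, ‖Om i p‖ ≤ K)
    (bd : ∀ v w, |g p v w| ≤ K * (‖v‖ * ‖w‖)) :
    Qp (8 * (20 * K ^ 4) ^ 6) (g p) (fderiv ℝ (tf G ρ ε R M a) p) Y := by
  obtain ⟨U, B, fd, A1, B1, k1, k2⟩ := tf_fd A ha s0 e0 e2 e3 hR hr
  have M0 := (hor ha).1
  have r0 : 0 < rd p := by linarith
  have K1 : 1 ≤ K := by linarith
  have e4 : ε * rd p ≤ rd p := mul_le_of_le_one_left r0.le (by nlinarith only [e1, e0, M0])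
  have ker : ∀ v, fderiv ℝ (tf G ρ ε R M a) p v = 0 → ‖v‖ ^ 2 ≤ 20 * K ^ 4 * g p v v := by
    intro v hv
    refine far_ker (k := B / U) h hB hs ha s0 d0 e0 e1 (by linarith) (by positivity) ?_
      k2 K1 (by linarith) nL nN nO ?_
    · linarith only [mul_le_mul_of_nonneg_right k1 (show 0 ≤ M + 1 by linarith),
        mul_le_mul_of_nonneg_right e1 r0.le, hR, hr, M0]
    · rw [fd] at hv
      field_simp
      linarith
  have fL : fderiv ℝ (tf G ρ ε R M a) p (Lo M a p) = U := by rw [fd, dr_Lo r0.ne', Lo_fst]; ring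
  have fN : fderiv ℝ (tf G ρ ε R M a) p (Nf β p) = B := by
    simp only [Nf, map_add, map_sum, map_smul]
    simp only [fd, dr_T, dr_Om, Om_fst]
    simp [eT]
  have q : ∀ i : ℕ, 1 ≤ K ^ i := fun i => one_le_pow₀ K1
  have K4 : K ≤ K ^ 4 := le_self_pow₀ K1 (by omega)
  have t0 : 0 < (K ^ 3)⁻¹ := by positivity
  have t1 : (K ^ 3)⁻¹ * K ^ 3 = 1 := by field_simp
  have LL := h.gauge.self_of_nhds.1
  refine qp_of (Z := Lo M a p + (K ^ 3)⁻¹ • Nf β p) (by linarith [q 4]) hB hs (fun v w =>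
    (bd v w).trans (by gcongr; linarith [q 4])) ker ?_ ?_ ?_ (pos_of_ker hB hs _ (fun v v0 hv =>
      pos_of_mul_pos_left (b := 20 * K ^ 4) (by linarith [ker v hv, pow_pos (norm_pos_iff.2 v0) 2])
        (by positivity)) (by rw [fL]; linarith) LL.le hY.le hL) hY
  · refine (norm_add_le _ _).trans ?_
    rw [norm_smul, Real.norm_of_nonneg t0.le]
    nlinarith [mul_le_mul (inv_le_one_of_one_le₀ (q 3)) nN (norm_nonneg _) zero_le_one]
  · rw [map_add, map_smul, fL, fN, smul_eq_mul]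
    nlinarith [q 4, mul_nonneg t0.le (zero_le_one.trans B1)]
  · have NN : g p (Nf β p) (Nf β p) ≤ K ^ 3 := (le_abs_self _).trans ((bd _ _).trans (by
      nlinarith [mul_le_mul nN nN (norm_nonneg _) (zero_le_one.trans K1)]))
    have LN := (far_val h hB ha s0 d0 e0 e1 (by linarith)).2.1
    simp only [hB.add_left, hB.add_right, hB.smul_left, hB.smul_right, LL, hs (Nf β p) (Lo M a p)]
    have b1 := mul_le_mul_of_nonneg_left NN t0.le
    have b2 : 2 * g p (Lo M a p) (Nf β p) + (K ^ 3)⁻¹ * g p (Nf β p) (Nf β p) ≤ -(9 / 10) := by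
      linarith
    have b3 : K ^ 4 * (K ^ 3)⁻¹ = K := by field_simp
    calc _ = 20 * (K ^ 4 * (K ^ 3)⁻¹) *
          (2 * g p (Lo M a p) (Nf β p) + (K ^ 3)⁻¹ * g p (Nf β p) (Nf β p)) := by ring
      _ ≤ -1 := by rw [b3]; nlinarith

/-- The inverse of the linear chart. -/
def qi (q : Par) : Par := ⟨0, 0, q.l⁻¹, q.Rᵀ⟩

theorem lin_qi {q : Par} (h : q.Rᵀ * q.R = 1) (hl : q.l ≠ 0) (p : R4) :
    q.lin ((qi q).lin p) = p ∧ (qi q).lin (q.lin p) = p := by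
  constructor <;> rw [Par.lin, lin_fst, Par.lin, xs_pt] <;>
    simp only [qi, mulVec_mulVec, h, mul_eq_one_comm.1 h, one_mulVec, mul_inv_cancel_left₀ hl,
      inv_mul_cancel_left₀ hl] <;> rfl

/-- The time function of an end. -/
def te (G ρ : ℝ → ℝ) (ε R : ℝ) (q : Par) (x : R4) : ℝ := tf G ρ ε R q.M q.a ((qi q).lin x)

theorem tb_sub (g k : Tw) (y : R4) : tb g y = tb (g - k) y + tb k y := by
  simp only [tb, Pi.sub_apply, ← Finset.sum_add_distrib, ← add_smul, sub_add_cancel]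

section family
variable {J : Type} {x : J → R4} {Y : J → R4} {g : J → Tw} {β : J → Fin 3 → R4 → ℝ} {ρ0 : ℝ}

theorem far_fm {M a : J → ℝ} {M0 a0 : ℝ} (A : Aux s C G ρ ρ') (h : Fo x M a M0 a0 ε (R + 1) ρ0)
    (s0 : 0 ≤ s) (d0 : 0 ≤ δ) (e1 : ε * (M0 + ε + 1) ≤ 1 / 60) (e2 : ε * C ≤ 1 / 20)
    (e3 : ε * (R + 3) ≤ 1 / 5) (hR : 82 * (M0 + ε + 1) ≤ R) (R0 : 0 ≤ R) (sb : ∀ j, Sb (g j) (x j))
    (sy : ∀ j, ∀ᶠ y in 𝓝 (x j), ∀ v w, g j y v w = g j y w v)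
    (hY : ∀ j, g j (x j) (Y j) (Y j) < 0 ∧ g j (x j) (Y j) (Lo (M j) (a j) (x j)) < 0)
    (hF : ∀ j, Far (M j) (a j) s δ ε N (g j) (β j) (x j)) :
    Fm N x g Y fun j => tf G ρ ε R (M j) (a j) := by
  obtain ⟨o1, o2⟩ := h.far sb sy s0 d0 (by linarith) hF
  obtain ⟨C1, c1, h1⟩ := (h.rd (N := 0)).val
  obtain ⟨C2, c2, h2⟩ := (h.Lo (N := 0)).val
  obtain ⟨C3, c3, h3⟩ := o1.val
  choose C4 c4 h4 using fun i => (h.Om (N := 0) i).val
  obtain ⟨C5, h5⟩ := Fm.val sb o2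
  simp only [Pi.one_apply, mul_one] at h1 h2 h3 h4
  have c5 := abs_nonneg C5
  have c6 : ∀ i, C4 i ≤ ∑ i, C4 i := fun i =>
    Finset.single_le_sum (fun i _ => c4 i) (Finset.mem_univ i)
  have c7 := (c4 0).trans (c6 0)
  refine ⟨sb, o2, h.par (F := fun z => tf G ρ ε R z.1.1 z.1.2 z.2) fun z k1 k2 k => ?_,
    8 * (20 * (1 + C1 + C2 + C3 + ∑ i, C4 i + |C5|) ^ 4) ^ 6, fun j => ?_⟩
  · have r := P354YR.s_rd (Q := (ℝ × ℝ) × R4) contDiffAt_snd k
    have b : ContDiffAt ℝ ∞ (fun z : (ℝ × ℝ) × R4 => √(z.1.1 ^ 2 - z.1.2 ^ 2)) z :=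
      ContDiffAt.sqrt (by fun_prop) (P354YR.dis_pos k1).ne'
    have p1 : ContDiffAt ℝ ∞ (fun z : (ℝ × ℝ) × R4 => rp z.1.1 z.1.2) z := contDiffAt_fst.fst.add b
    have p2 : ContDiffAt ℝ ∞ (fun z : (ℝ × ℝ) × R4 => rm z.1.1 z.1.2) z := contDiffAt_fst.fst.sub b
    have p0 := P354YR.rp_pos k1
    exact contDiffAt_snd.fst.add (contDiffAt_const.mul ((A.sρ.contDiffAt.comp z
      (r.sub contDiffAt_const)).mul (A.sG.contDiffAt.comp z (contDiffAt_snd.fst.sub (r.add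
        ((((r.sub p1).log (sub_pos.2 k2).ne').sub ((p2.div p1 p0.ne').mul ((r.sub p2).log
          (sub_pos.2 ((P354YR.rm_lt k1).trans k2)).ne'))).div (b.div
            ((contDiffAt_const.mul contDiffAt_fst.fst).mul p1) (mul_pos (mul_pos two_pos
              (P354YR.M_pos k1)) p0).ne') (P354YR.ka_pos k1).ne'))))))
  · obtain ⟨m1, m2⟩ := h.hM j
    have e0 := (abs_nonneg _).trans m1
    have m3 := abs_sub_abs_le_abs_sub (a j) a0
    rw [abs_le] at m1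
    exact far_qp A (by linarith [h.e, m1.1]) s0 d0 e0
      (le_trans (mul_le_mul_of_nonneg_left (by linarith [m1.2]) e0) e1) e2 e3 (by linarith [m1.2])
      (h.hx j).1 (sb j).bl.self_of_nhds (sy j).self_of_nhds (hY j).1 (hY j).2 (hF j)
      (by linarith [(le_abs_self _).trans (h1 j)]) (by linarith [h2 j]) (by linarith [h3 j])
      (fun i => by linarith [h4 i j, c6 i]) fun v w => (h5 j v w).trans
        (mul_le_mul_of_nonneg_right (by linarith [le_abs_self C5]) (by positivity))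

/-- Forms close to a fixed field, with the time function t. -/
theorem fix_fm {k : Tw} {S : Set R4} {Z : R4 → R4} {c : ℝ} (hS : IsCompact S) (c0 : 0 < c)
    (sk : ∀ y ∈ S, Sb k y ∧ ContinuousAt Z y ∧ 0 < (Z y).1) (hx : ∀ j, x j ∈ S)
    (sb : ∀ j, Sb (g j) (x j)) (sy : ∀ j v w, g j (x j) v w = g j (x j) w v)
    (bd : ∀ j, Bd N (g j - k) (x j) ε) (ker : ∀ j v, v.1 = 0 → c * ‖v‖ ^ 2 ≤ g j (x j) v v)
    (tl : ∀ j, g j (x j) (Z (x j)) (Z (x j)) ≤ -(c * ‖Z (x j)‖ ^ 2))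
    (hY : ∀ j, g j (x j) (Y j) (Y j) < 0 ∧ 0 < (Y j).1) : Fm N x g Y fun _ y => y.1 := by
  have o : Oj N x (fun j => tb (g j)) 1 := (((P354YO.oj_of_bd (fun j => (sb j).sub (sk _ (hx j)).1)
    bd).wt (c := ε) (fun _ => zero_le_one) fun _ => (mul_one _).ge).add
      (Oj.fix hS (fun y hy => (sk y hy).1.cd) hx)).congr' fun _ _ => tb_sub _ _ _
  obtain ⟨C1, h1⟩ := Fm.val sb o
  obtain ⟨C2, h2⟩ := hS.exists_bound_of_continuousOn fun y hy => (sk y hy).2.1.continuousWithinAt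
  obtain ⟨c3, c30, h3⟩ := hS.exists_forall_le' (a := 0)
    (fun y hy => (sk y hy).2.1.fst.continuousWithinAt) fun y hy => (sk y hy).2.2
  have i1 := inv_pos.2 c0
  have i2 := inv_pos.2 c30
  have i3 := inv_pos.2 (mul_pos c0 (pow_pos c30 2))
  have i4 := abs_nonneg C1
  have i5 := abs_nonneg C2
  refine ⟨sb, o, Oj.fix hS (fun _ _ => contDiffAt_fst) hx,
    8 * (1 + |C1| + |C2| + c⁻¹ + c3⁻¹ + (c * c3 ^ 2)⁻¹) ^ 6, fun j => ?_⟩
  rw [fderiv_fst]
  have z1 := h3 _ (hx j)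
  have z2 : c3 ^ 2 ≤ ‖Z (x j)‖ ^ 2 :=
    pow_le_pow_left₀ c30.le (z1.trans ((le_abs_self _).trans (norm_fst_le (Z (x j))))) 2
  have z3 : g j (x j) (Z (x j)) (Z (x j)) ≤ -(c * c3 ^ 2) := by
    linarith [tl j, mul_le_mul_of_nonneg_left z2 c0.le]
  refine qp_of (Z := Z (x j)) (by linarith)
    (sb j).bl.self_of_nhds (sy j) (fun v w => (h1 j v w).trans (mul_le_mul_of_nonneg_right
      (by linarith [le_abs_self C1]) (by positivity))) (fun v hv => ?_)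
    (by linarith [h2 _ (hx j), le_abs_self C2]) ?_ ?_ (hY j).2 (hY j).1
  · have := ker j v hv
    exact ((le_inv_mul_iff₀ c0).2 this).trans (mul_le_mul_of_nonneg_right (by linarith)
      (le_trans (by positivity) this))
  · exact ((le_inv_mul_iff₀ c30).2 (by simpa using z1)).trans
      (mul_le_mul_of_nonneg_right (by linarith) (c30.le.trans z1))
  · refine (mul_le_mul_of_nonpos_right (b := (c * c3 ^ 2)⁻¹) (by linarith)
      (z3.trans (neg_nonpos.2 (by positivity)))).trans ?_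
    rw [inv_mul_le_iff₀ (by positivity)]
    linarith

/-- The uniform bounds on an end. -/
theorem end_fm {M a r1 θ ε1 : ℝ} {Yf : J → R4 → R4} {q q' : J → Par} (A : Aux s C G ρ ρ')
    (h1 : 0 < r1) (s0 : 0 ≤ s) (d0 : 0 ≤ δ) (e : |a| + 2 * ε < M) (e0 : 0 ≤ ε)
    (e1 : ε * (M + ε + 1) ≤ 1 / 60) (e2 : ε * C ≤ 1 / 20) (e3 : ε * (R + 3) ≤ 1 / 5)
    (hR : 82 * (M + ε + 1) ≤ R) (e4 : 2 * ε ≤ ε1) (e5 : 0 < ε1)
    (H : ∀ (p : R4) (B : R4 → R4 → ℝ), r1 ≤ rd p → (∀ v, |B v v - gin M a p v v| ≤ ε1 * ‖v‖ ^ 2) →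
      (∀ v ≠ 0, v.1 = 0 → 0 < B v v) ∧ B (XI M a p) (XI M a p) < 0 ∧ 0 < (XI M a p).1 ∧
        dr p (XI M a p) < 0) (hx : ∀ j, x j ∈ En M a r1 θ ∧ ‖x j‖ ≤ ρ0) (sb : ∀ j, Sb (g j) (x j))
    (sy : ∀ j, ∀ᶠ y in 𝓝 (x j), ∀ v w, g j y v w = g j y w v)
    (hY : ∀ j, g j (x j) (Yf j (x j)) (Yf j (x j)) < 0)
    (hE : ∀ j, IsEnd M a r1 θ R s δ ε N (g j) (Yf j) (q j) (q' j) (β j)) :
    Fm N x g (fun j => Yf j (x j)) fun j => te G ρ ε R (q' j) := by
  have M0 : 0 < M := by linarith [abs_nonneg a]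
  have e6 : ε ≤ 1 / 60 := by nlinarith
  have l : ∀ j, 1 / 2 ≤ (q' j).l ∧ (q' j).l ≤ 2 := fun j => by
    have := abs_lt.1 (hE j).par.2.2.2.1
    constructor <;> linarith [this.1, this.2]
  have l0 : ∀ j, 0 < (q' j).l := fun j => by linarith [(l j).1]
  have o := fun j => (hE j).par.2.2.2.2.1
  have li := fun j => lin_qi (o j) (l0 j).ne'
  have ri : ∀ j y, rd ((qi (q' j)).lin y) = rd y := fun j y => by
    rw [← rd_lin (o j), (li j y).1]
  refine Fm.cases (fun j => rd (x j) < R + 1) ?_ ?_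
  · have nr := fun j : {j // rd (x j) < R + 1} => (hE j).near _ (hx j).1 (by linarith [j.2])
    have pt : ∀ (j : {j // rd (x j) < R + 1}) (t : ℝ), |t| ≤ ε1 / 2 → ∀ v, |(g j (x j) v v +
        t * (‖v‖ * ‖v‖)) - gin M a (x j) v v| ≤ ε1 * ‖v‖ ^ 2 := fun j t ht v => by
      have k := abs_le.1 (P354YJ.bd0 (nr j).2.1 v)
      rw [abs_le] at ht ⊢
      constructor <;> nlinarith [k.1, k.2, ht.1, ht.2, sq_nonneg ‖v‖]
    have F := fix_fm (S := Metric.closedBall 0 ρ0 ∩ {y | r1 ≤ rd y}) (Z := XI M a) (c := ε1 / 2)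
      (x := fun j : {j // rd (x j) < R + 1} => x j) (Y := fun j => Yf j (x j))
      ((isCompact_closedBall _ _).inter_right (isClosed_le continuous_const rd_cont))
      (half_pos e5) (fun y hy => ⟨P354YO.sb_gin (h1.trans_le hy.2), (P354YR.s_XI (P354YR.xs_ne
        (h1.trans_le hy.2))).continuousAt, (H y _ hy.2 fun v => by
          rw [sub_self, abs_zero]; positivity).2.2.1⟩)
      (fun j => ⟨mem_closedBall_zero_iff.2 (hx j).2, (hx j).1.1.le⟩) (fun j => sb j)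
      (fun j => (sy j).self_of_nhds) (fun j => (nr j).2.1) (fun j v hv => ?_) (fun j => ?_)
      fun j => ⟨hY j, (nr j).1⟩
    · have ev : ∀ j : {j // rd (x j) < R + 1},
          te G ρ ε R (q' j) =ᶠ[𝓝 (x j)] fun y => (q' j).l⁻¹ * y.1 := fun j => by
        filter_upwards [rd_cont.continuousAt.eventually (gt_mem_nhds j.2)] with y hy
        rw [te, tf, ri, A.zero _ (by linarith), zero_mul, mul_zero, add_zero]
        rfl
      obtain ⟨K, hK⟩ := F.qp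
      refine ⟨F.sb, F.bd, (oj_mul (Oj.const (fun _ => zero_le_one) ⟨2, fun j => ?_⟩) F.tm).congr ev,
        2 * K, fun j => (hK j).scale fun w hw => ?_⟩
      · rw [Real.norm_of_nonneg (inv_pos.2 (l0 _)).le, inv_le_comm₀ (l0 _) (by simp)]
        simpa using (l j).1
      · rw [(ev j).fderiv_eq, fderiv_const_mul differentiableAt_fst, _root_.smul_apply, smul_eq_mul,
          ← mul_assoc]
        exact le_mul_of_one_le_left hw ((le_mul_inv_iff₀ (l0 _)).2 (by simpa using (l j).2))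
    · rcases eq_or_ne v 0 with rfl | v0
      · rw [← zero_smul ℝ (0 : R4), (sb j).bl.self_of_nhds.smul_left]; simp
      · linarith [(H _ (fun v w => g j (x j) v w + -(ε1 / 2) * (‖v‖ * ‖w‖)) (hx j).1.1.le
          (pt j _ (by rw [abs_neg, abs_of_pos (half_pos e5)]))).1 v v0 hv]
    · linarith [(H _ (fun v w => g j (x j) v w + ε1 / 2 * (‖v‖ * ‖w‖)) (hx j).1.1.le
        (pt j _ (by rw [abs_of_pos (half_pos e5)]))).2.1]
  · let I := {j // ¬rd (x j) < R + 1}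
    have n := fun j => P354XY.norm_lin (o j) (l j).1 (l j).2
    have fr := fun j : I => (hE j).far ((qi (q' j)).lin (x j)) ((li j _).1.symm ▸ (hx j).1)
      ((ri j _).symm ▸ not_lt.1 j.2)
    have c : ∀ j : I, Tendsto (q' j).lin (𝓝 ((qi (q' j)).lin (x j))) (𝓝 (x j)) := fun j =>
      (linL (q' j)).continuous.tendsto' _ _ (li j _).1
    refine Fm.push (φ := fun j : I => (qi (q' j)).lin) (L := fun j => linL (q' j))
      (far_fm (M := fun j : I => (q' j).M) (a := fun j => (q' j).a) (ρ0 := 3 * ρ0)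
        (g := fun j : I => pb (q' j).lin (g j)) (Y := fun j : I => (qi (q' j)).lin (Yf j (x j))) A
        ⟨e, by linarith, fun j => ⟨(hE j).par.2.1.le, (hE j).par.2.2.1.le⟩, fun j =>
          ⟨(ri j _).symm ▸ not_lt.1 j.2, ((n j _).2.trans_eq (by rw [(li j _).1])).trans
            (by linarith [(hx j).2])⟩⟩ s0 d0 e1 e2 e3 hR (by linarith)
        (fun j => Sb.pull ((li j _).1.symm ▸ sb j) (linL _).contDiff.contDiffAt)
        (fun j => ((c j).eventually (sy j)).mono fun y hy v w => hy _ _) (fun j => ?_)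
        fun j => (fr j).2) (fun j => (linL _).contDiff.contDiffAt) (fun m => ?_) (C := 3)
      (by norm_num) (fun j v => (n j v).1) (fun j v => by rw [lin_fd]; exact (li j v).1)
      (fun j v => by rw [lin_fd]; exact (li j v).2) (fun j => .of_forall fun y => ?_)
      (fun j => .rfl) fun j => lin_fd _ _ _
    · have := (fr j).1
      simp only [pb_lin, (li j _).1] at this ⊢
      exact ⟨hY j, this⟩
    · exact (Oj.const (v := fun j : I => linL (qi (q' j))) (fun _ => zero_le_one) ⟨3, fun j =>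
        ContinuousLinearMap.opNorm_le_bound _ (by simp) fun v =>
          (n j ((qi (q' j)).lin v)).2.trans_eq (by rw [(li j _).1, mul_one])⟩).congr'
        fun j _ => (linL _).fderiv
    · funext v w
      simp only [pb_lin, (li j _).1]

end family

end Vale.Agent.P354PR
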