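import Vale.Agent.P354PR.U3
import Vale.Agent.P354LN.Lens

/-!
UBD: bounds on compact sets which are uniform in the development.
-/

set_option maxSynthPendingDepth 3

open scoped ContDiff
open Set Filter Topology Matrix

noncomputable section

namespace Vale.Agent.P354PR

open Vale.Agent.P354n (R4)
open Vale.Agent.P354I (Dat rm rp)
open Vale.Agent.P354XD (tb)
open Vale.Agent.P354XE
open Vale.Agent.P354XA (hor proper small rd_lin)
open Vale.Agent.P354YI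
open Vale.Agent.P354YO (Sb sb_lor bd_of_oj bd_mono)
open Vale.Agent.P354YR (XI gK XK kap_ok gK_lor D0_sub)
open Vale.Agent.P354YM
open Vale.Agent.P354LN (vs vs_cont ev_ci en_of vs_le)

variable {M a r1 r0 θ R s δ ε ε1 C0 c : ℝ} {N : ℕ} {G ρ ρ' : ℝ → ℝ} {C : Set R4}

theorem Qp.sc {K : ℝ} {B : R4 → R4 → ℝ} {f f' : R4 →L[ℝ] ℝ} {Y : R4} (h : Qp K B f Y) (c1 : 1 ≤ c)
    (e : ∀ w, 0 ≤ f w → f w ≤ c * f' w) : Qp (K * c) B f' Y :=
  have k := le_mul_of_one_le_right (zero_le_one.trans h.one) c1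
  ⟨h.one.trans k, (h.mono k).nd, fun w a b => by
    have k := h.cone w a b
    rw [mul_assoc]
    exact k.trans (mul_le_mul_of_nonneg_left (e w (nonneg_of_mul_nonneg_right
      ((norm_nonneg _).trans k) (by linarith [h.one]))) (zero_le_one.trans h.one))⟩

theorem te_eq {q : Par} (h : q.Rᵀ * q.R = 1) (hl : q.l ≠ 0) (y : R4) : ∃ u,
    q.l * te G ρ ε R q y = y.1 + q.l * (ε * (ρ (rd y - (R + 1)) * G u)) := by
  refine ⟨((qi q).lin y).1 - P354XA.psi q.M q.a (rd y), ?_⟩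
  rw [te, tf, ← rd_lin h ((qi q).lin y), (lin_qi h hl y).1, mul_add]
  exact congrArg (· + _) (mul_inv_cancel_left₀ hl _)

/-- The contribution of an end to the time function. -/
def Fe (G ρ : ℝ → ℝ) (M a θ ε R : ℝ) (σ : Bool) (q : Par) (x : R4) : ℝ :=
  if θ ≤ vs M a σ x then ρ ((ka M a / Real.log 2) *
    (q.l * te G ρ ε R q (ci M a σ x) - Real.log θ / ka M a)) else 0

theorem cpt_ker {S : Set R4} {k : Tw} (hS : IsCompact S)
    (h : ∀ p ∈ S, Sb k p ∧ ∀ v ≠ 0, v.1 = 0 → 0 < k p v v) :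
    ∃ c > 0, ∀ p ∈ S, ∀ v : R4, v.1 = 0 → c * ‖v‖ ^ 2 ≤ k p v v := by
  obtain ⟨c, c0, hc⟩ := (hS.prod ((isCompact_sphere (0 : R4) 1).inter_right
    (isClosed_eq continuous_fst (continuous_const (y := 0))))).exists_forall_le' (a := 0)
    (f := fun z => tb k z.1 z.2 z.2) (fun z hz => by
      have c : ContinuousAt (fun z : R4 × R4 => tb k z.1) z :=
        (h _ hz.1).1.cd.continuousAt.comp continuousAt_fst
      exact ((c.clm_apply continuousAt_snd).clm_apply continuousAt_snd).continuousWithinAt)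
    fun z hz => by
      rw [P354YO.tb_ap (h _ hz.1).1.bl.self_of_nhds]
      exact (h _ hz.1).2 _ (ne_zero_of_mem_unit_sphere ⟨_, hz.2.1⟩) hz.2.2
  refine ⟨c, c0, fun p hp v hv => ?_⟩
  have b := (h p hp).1.bl.self_of_nhds
  rcases eq_or_ne v 0 with rfl | v0
  · rw [← zero_smul ℝ (0 : R4), b.smul_left]; simp
  have n0 := norm_pos_iff.2 v0
  have := hc (p, ‖v‖⁻¹ • v) ⟨hp, by simp [norm_smul, n0.ne'], by simp [hv]⟩
  simp only [P354YO.tb_ap b, b.smul_left, b.smul_right] at this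
  rwa [le_inv_mul_iff₀ n0, le_inv_mul_iff₀ n0, ← mul_assoc, ← sq, mul_comm] at this

section
variable (ha : a ≠ 0) (hM : |a| < M) (h1 : rm M a < r1) (hC : IsCompact C)
  (hC' : ∀ p ∈ C, p ∈ D0 M a r1 ∧ r0 ≤ kr M a p)
include ha hM h1 hC hC'

/-- The bounds which come from an end. -/
theorem end_k (σ : Bool) (A : Aux s C0 G ρ ρ') (h0 : 0 < θ) (s0 : 0 ≤ s) (d0 : 0 ≤ δ)
    (e : |a| + 2 * ε < M) (e0 : 0 ≤ ε) (e1 : ε * (M + ε + 1) ≤ 1 / 60) (e2 : ε * C0 ≤ 1 / 20)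
    (e3 : ε * (R + 3) ≤ 1 / 5) (hR : 82 * (M + ε + 1) ≤ R) (e4 : 2 * ε ≤ ε1) (e5 : 0 < ε1)
    (H : ∀ (p : R4) (B : R4 → R4 → ℝ), r1 ≤ rd p → (∀ v, |B v v - gin M a p v v| ≤ ε1 * ‖v‖ ^ 2) →
      (∀ v ≠ 0, v.1 = 0 → 0 < B v v) ∧ B (XI M a p) (XI M a p) < 0 ∧ 0 < (XI M a p).1 ∧
        dr p (XI M a p) < 0)
    (pr : ∀ p ∈ En M a r1 θ, p.1 ≤ Real.log θ / ka M a → rd p ≤ R) :
    ∃ B, ∀ d (T : Tg), T.Is ⟨M, a, r1, θ, R, s, δ, ε, N⟩ d → ∀ p ∈ C,
      ContDiffAt ℝ ∞ (Fe G ρ M a θ ε R σ (T.q' σ)) p ∧ Jb 2 (Fe G ρ M a θ ε R σ (T.q' σ)) p B ∧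
      (∀ w, T.g p w w ≤ 0 → T.g p w (T.Xf p) ≤ 0 →
        0 ≤ fderiv ℝ (Fe G ρ M a θ ε R σ (T.q' σ)) p w) ∧ (2 * θ ≤ vs M a σ p → Bd N T.g p B ∧
          Qp B (T.g p) (fderiv ℝ (Fe G ρ M a θ ε R σ (T.q' σ)) p) (T.Xf p)) := by
  obtain ⟨M0, m0, -, -, k0, -⟩ := hor hM
  have L2 : 0 < Real.log 2 := Real.log_pos one_lt_two
  have hS : IsCompact (C ∩ vs M a σ ⁻¹' Ici θ) := hC.of_isClosed_subset
    (ContinuousOn.preimage_isClosed_of_isClosed (fun p hp =>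
      (vs_cont ha hM h1 (hC' p hp).1).continuousWithinAt) hC.isClosed isClosed_Ici) inter_subset_left
  have en := fun p (hp : p ∈ C ∩ vs M a σ ⁻¹' Ici θ) => en_of ha hM h1 h0 (hC' p hp.1).1 hp.2
  have cc := fun p hp => ci_ch kap_ok ha hM σ (h1.trans (en p hp).1.1)
  have cs := fun p hp => (ch_spec kap_ok ha hM σ (h1.trans (en p hp).1.1)).1
  have sc : ∀ p ∈ C ∩ vs M a σ ⁻¹' Ici θ, ContDiffAt ℝ ∞ (ci M a σ) p := fun p hp => by
    simpa only [(en p hp).2.1] using (cc p hp).1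
  obtain ⟨ρ0, hρ⟩ := hS.exists_bound_of_continuousOn fun p hp =>
    (sc p hp).continuousAt.continuousWithinAt
  obtain ⟨C1, hL⟩ := hS.exists_bound_of_continuousOn
    (f := fun p => fderiv ℝ (ch M a σ) (ci M a σ p)) fun p hp =>
      ((at_fd (cs p hp)).continuousAt.comp (sc p hp).continuousAt).continuousWithinAt
  let I := {j : Dat × Tg × R4 // j.2.1.Is ⟨M, a, r1, θ, R, s, δ, ε, N⟩ j.1 ∧
    j.2.2 ∈ C ∩ vs M a σ ⁻¹' Ici θ}
  have m : ∀ j : I, ch M a σ (ci M a σ j.1.2.2) ∈ j.1.2.1.D := fun j =>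
    (en _ j.2.2).2.1.symm ▸ j.2.1.sub (hC' _ j.2.2.1).1
  have F : Fm N (fun j : I => j.1.2.2) (fun j => j.1.2.1.g) (fun j => j.1.2.1.Xf j.1.2.2)
      fun j y => te G ρ ε R (j.1.2.1.q' σ) (ci M a σ y) := by
    refine Fm.push (φ := fun _ => ci M a σ) (L := fun j => fderiv ℝ (ch M a σ) (ci M a σ j.1.2.2))
      (end_fm (x := fun j : I => ci M a σ j.1.2.2) (g := fun j => pb (ch M a σ) j.1.2.1.g)
        (Yf := fun j => j.1.2.1.Y σ) (q := fun j => j.1.2.1.q σ) A (m0.trans_lt h1) s0 d0 e e0 e1 e2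
        e3 hR e4 e5 H (fun j => ⟨(en _ j.2.2).1, hρ _ j.2.2⟩)
        (fun j => (sb_lor j.2.1.lor (m j)).pull (cs _ j.2.2))
        (fun j => ((cs _ j.2.2).continuousAt.eventually (j.2.1.lor.isOpen.mem_nhds (m j))).mono
          fun y hy v w => j.2.1.lor.met.symm _ hy _ _) (fun j => ?_) fun j => j.2.1.ends σ)
      (fun j => sc _ j.2.2) (fun n => Oj.fix hS (fun p hp => at_fd (sc p hp)) fun j => j.2.2)
      (C := max 1 C1) (le_max_left _ _) (fun j v => (ContinuousLinearMap.le_opNorm _ v).trans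
        (mul_le_mul_of_nonneg_right ((hL _ j.2.2).trans (le_max_right _ _)) (norm_nonneg _)))
      (fun j v => by simpa only [(en _ j.2.2).2.1] using (cc _ j.2.2).2.2 v)
      (fun j v => by simpa only [(en _ j.2.2).2.1] using (cc _ j.2.2).2.1 v) (fun j => ?_)
      (fun j => .rfl) fun j => ?_
    · rw [pb, j.2.1.ori σ _ (en _ j.2.2).1]
      exact j.2.1.lor.tl _ (m j)
    · have D := (hC' _ j.2.2.1).1
      filter_upwards [xs_cont.continuousAt.eventually_ne D.1, continuousAt_const.eventually_lt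
        (kr_cont kap_ok ha hM D.1) (h1.trans D.2.2), continuousAt_const.eventually_lt
        (P354LN.nv_cont ha hM h1 D) (en _ j.2.2).2.2] with y b1 b2 b3
      obtain ⟨-, c2, c3⟩ := ci_spec kap_ok ha hM b1 b2 b3
      have c4 := (ci_ch kap_ok ha hM σ (c3 ▸ b2 : rm M a < rd (ci M a σ y))).2.2
      rw [c2] at c4
      funext v w
      simp only [pb, c2, c4]
    · have := (cc _ j.2.2).2.1 (j.1.2.1.Y σ (ci M a σ j.1.2.2))
      rwa [j.2.1.ori σ _ (en _ j.2.2).1, (en _ j.2.2).2.1] at this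
  have l : ∀ {d} {T : Tg}, T.Is ⟨M, a, r1, θ, R, s, δ, ε, N⟩ d →
      1 / 2 ≤ (T.q' σ).l ∧ (T.q' σ).l ≤ 2 := fun h => by
    have := abs_lt.1 (h.ends σ).par.2.2.2.1
    have : ε ≤ 1 / 60 := by nlinarith
    constructor <;> linarith [this]
  have O1 : Oj 2 (fun j : I => j.1.2.2) (fun j y => ka M a / Real.log 2 * ((j.1.2.1.q' σ).l *
      te G ρ ε R (j.1.2.1.q' σ) (ci M a σ y) - Real.log θ / ka M a)) 1 :=
    oj_mul (.cst _) ((oj_mul (Oj.const (fun _ => zero_le_one) ⟨2, fun j => by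
      rw [Real.norm_of_nonneg (by linarith [(l j.2.1).1])]
      simpa using (l j.2.1).2⟩) F.tm).sub (.cst _))
  obtain ⟨C2, -, h2⟩ := O1.val
  have O2 := Oj.comp O1.sm 2 (G := fun _ => ρ) O1.fd (Oj.fix (isCompact_closedBall 0 (C2 * 1))
    (fun _ _ => A.sρ.contDiffAt) fun j => mem_closedBall_zero_iff.2 (h2 j))
  have ev : ∀ j : I, Fe G ρ M a θ ε R σ (j.1.2.1.q' σ) =ᶠ[𝓝 j.1.2.2] fun y =>
      ρ (ka M a / Real.log 2 * ((j.1.2.1.q' σ).l * te G ρ ε R (j.1.2.1.q' σ) (ci M a σ y) -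
        Real.log θ / ka M a)) := fun j => by
    have D := (hC' _ j.2.2.1).1
    have E := ev_ci ha hM h1 D (en _ j.2.2).2.2
    have k : ∀ᶠ y in 𝓝 j.1.2.2, θ ≤ vs M a σ y ∨ kr M a y < R + 1 := by
      rcases (show θ ≤ vs M a σ j.1.2.2 from j.2.2.2).eq_or_lt with k | k
      · refine ((kr_cont kap_ok ha hM D.1).eventually_lt continuousAt_const ?_).mono
          fun _ => Or.inr
        rw [← E.self_of_nhds.1]
        refine lt_of_le_of_lt (pr _ (en _ j.2.2).1 ?_) (lt_add_one R)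
        rw [le_div_iff₀' k0, Real.le_log_iff_exp_le h0, ← E.self_of_nhds.2, ← k]
      · exact (continuousAt_const.eventually_lt (vs_cont ha hM h1 D) k).mono fun _ h => Or.inl h.le
    filter_upwards [k, E] with y b1 b2
    by_cases b3 : θ ≤ vs M a σ y
    · exact if_pos b3
    obtain ⟨u, hu⟩ := te_eq (G := G) (ρ := ρ) (ε := ε) (R := R) (j.2.1.ends σ).par.2.2.2.2.1
      (one_half_pos.trans_le (l j.2.1).1).ne' (ci M a σ y)
    rw [Fe, if_neg b3, hu, A.zero (_ - _) (by linarith [b1.resolve_left b3, b2.1]), zero_mul,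
      mul_zero, mul_zero, add_zero, A.zero _ (mul_nonpos_of_nonneg_of_nonpos (by positivity) ?_)]
    rw [sub_nonpos, le_div_iff₀' k0, Real.le_log_iff_exp_le h0, ← b2.2]
    exact (not_le.1 b3).le
  have fd : ∀ (j : I) w, fderiv ℝ (Fe G ρ M a θ ε R σ (j.1.2.1.q' σ)) j.1.2.2 w =
      ρ' (ka M a / Real.log 2 * ((j.1.2.1.q' σ).l * te G ρ ε R (j.1.2.1.q' σ) (ci M a σ j.1.2.2) -
        Real.log θ / ka M a)) * (ka M a / Real.log 2 * ((j.1.2.1.q' σ).l * fderiv ℝ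
          (fun y => te G ρ ε R (j.1.2.1.q' σ) (ci M a σ y)) j.1.2.2 w)) := fun j w => by
    rw [(ev j).fderiv_eq]
    exact DFunLike.congr_fun ((A.hρ _).1.comp_hasFDerivAt j.1.2.2
      ((((((F.tm.sm j).differentiableAt (by simp)).hasFDerivAt.const_mul _).sub_const _).const_mul
        _))).fderiv w
  obtain ⟨C3, c3, h3⟩ := (O2.congr ev).bd
  obtain ⟨C4, c4, h4⟩ := bd_of_oj F.sb F.bd
  obtain ⟨K, hK⟩ := F.qp
  have c5 : 0 ≤ 2 * Real.log 2 / ka M a := by positivity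
  refine ⟨C3 + C4 + |K * (1 + 2 * Real.log 2 / ka M a)|, fun d T h p hp => ?_⟩
  have c6 := abs_nonneg (K * (1 + 2 * Real.log 2 / ka M a))
  by_cases k : θ ≤ vs M a σ p
  · let j : I := ⟨(d, T, p), h, hp, k⟩
    have l1 := (l h).1
    refine ⟨(O2.congr ev).sm j, (h3 j).mono le_rfl (by simp only [Pi.one_apply]; linarith),
      fun w w1 w2 => (fd j w).symm ▸ mul_nonneg (A.hρ _).2.1 (mul_nonneg (by positivity)
        (mul_nonneg (by linarith) (nonneg_of_mul_nonneg_right ((norm_nonneg _).trans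
          ((hK j).cone w w1 w2)) (by linarith [(hK j).one])))), fun k2 =>
      ⟨bd_mono (h4 j) le_rfl (by simp only [Pi.one_apply]; linarith), ((hK j).sc
        (c := 1 + 2 * Real.log 2 / ka M a) (by linarith) fun w hw => ?_).mono
          (by linarith [le_abs_self (K * (1 + 2 * Real.log 2 / ka M a))])⟩⟩
    obtain ⟨u, hu⟩ := te_eq (G := G) (ρ := ρ) (ε := ε) (R := R) (h.ends σ).par.2.2.2.2.1
      (one_half_pos.trans_le l1).ne' (ci M a σ p)
    have t : Real.log (2 * θ) ≤ ka M a * (ci M a σ p).1 := by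
      rw [Real.log_le_iff_le_exp (by positivity),
        ← (ev_ci ha hM h1 (hC' p hp).1 (en p ⟨hp, k⟩).2.2).self_of_nhds.2]
      exact k2
    rw [Real.log_mul two_ne_zero h0.ne'] at t
    rw [fd j w, A.one, one_mul]
    · have e7 : 2 * Real.log 2 / ka M a * (ka M a / Real.log 2) = 2 := by field_simp
      have := mul_le_mul_of_nonneg_right l1 hw
      have := mul_nonneg (show 0 ≤ ka M a / Real.log 2 by positivity)
        (mul_nonneg (show 0 ≤ (T.q' σ).l by linarith) hw)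
      rw [add_mul, one_mul, ← mul_assoc _ (ka M a / Real.log 2), e7]
      linarith
    · rw [hu, ge_iff_le, div_mul_eq_mul_div, le_div_iff₀ L2, mul_sub, mul_div_cancel₀ _ k0.ne']
      have := mul_nonneg k0.le (mul_nonneg (show 0 ≤ (T.q' σ).l by linarith) (mul_nonneg e0
        (mul_nonneg (A.hρ (rd (ci M a σ p) - (R + 1))).2.2.2.2.1 (A.hG u).2.1)))
      linarith
  · have z : Fe G ρ M a θ ε R σ (T.q' σ) =ᶠ[𝓝 p] fun _ => 0 :=
      ((vs_cont ha hM h1 (hC' p hp).1).eventually_lt continuousAt_const (not_le.1 k)).mono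
        fun y hy => if_neg hy.not_ge
    exact ⟨contDiffAt_const.congr_of_eventuallyEq z, ((jb_const 2 (0 : ℝ) p).congr z).mono le_rfl
      (by rw [norm_zero]; linarith), fun w _ _ => by rw [z.fderiv_eq]; simp,
      fun k2 => absurd (le_trans (by linarith) k2) k⟩

end

/-- **UBD.** -/
theorem ubd : UBD := by
  intro M a r1 r0 r2 s δ ⟨ha, hM, ⟨h1, h2, _, _⟩, hs, hδ⟩
  obtain ⟨M0, m0, -⟩ := hor hM
  obtain ⟨G, C0, g1, g2⟩ := ex_prim hs
  obtain ⟨ρ, ρ', p1, p2, p3, p4⟩ := ex_pos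
  have A : Aux s C0 G ρ ρ' := ⟨g1, g2, p1, p2, p3, p4⟩
  obtain ⟨θ0, t0, hθ⟩ := P354YR.tm_box hM h1
  obtain ⟨ε1, e1, H⟩ := P354YJ.end_pt hM (m0.trans_lt h1)
  refine ⟨θ0, t0, fun θ hθ' => ?_⟩
  obtain ⟨R0, pr⟩ := proper hM (Real.log θ / ka M a)
  refine ⟨max R0 (82 * (M + 2)), fun R hR => ⟨0, fun N _ => ?_⟩⟩
  have hS := box_cpt kap_ok ha hM (h1.trans h2) (2 * θ)
  have tm := fun p (hp : p ∈ {P | xs P ≠ 0 ∧ 0 ≤ P.1 ∧ r0 ≤ kr M a P ∧
      P.1 + |kx M a P| ≤ 2 * θ * mf M a (kr M a P)}) =>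
    hθ θ hθ'.2.le p ⟨⟨hp.1, hp.2.1, h2.trans_le hp.2.2.1⟩, Or.inr hp.2.2.2⟩
  have dk := fun p (hp : p ∈ {P | xs P ≠ 0 ∧ 0 ≤ P.1 ∧ r0 ≤ kr M a P ∧
      P.1 + |kx M a P| ≤ 2 * θ * mf M a (kr M a P)}) =>
    D0_sub h1.le ⟨hp.1, hp.2.1, h2.trans_le hp.2.2.1⟩
  simp only [Tm, fderiv_fst] at tm
  obtain ⟨c1, c10, hc1⟩ := cpt_ker hS fun p hp => ⟨sb_lor (gK_lor hM) (dk p hp), (tm p hp).2.2⟩
  obtain ⟨c2, c20, hc2⟩ := hS.exists_forall_le' (a := 0) (f := fun p =>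
    -gK M a p (XK M a p) (XK M a p) / (1 + ‖XK M a p‖ ^ 2)) (fun x hx => by
      have c := P354YR.s_XK (dk x hx)
      exact ((P354YR.s_chr P354YR.open_DK (P354YR.gK_met hM) (dk x hx) c c c).1.continuousAt.neg.div
        (continuousAt_const.add (c.continuousAt.norm.pow 2))
          (add_pos_of_pos_of_nonneg one_pos (sq_nonneg _)).ne').continuousWithinAt) fun x hx =>
    div_pos (neg_pos.2 ((gK_lor hM).tl x (dk x hx))) (by positivity)
  obtain ⟨ε0, hε0, hε⟩ := mem_nhdsGT_iff_exists_Ioc_subset.1 ((small 2 (lt_min c10 c20)).and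
    ((small 2 e1).and ((small (M + 2) (show (0 : ℝ) < 1 / 60 by norm_num)).and
    ((small C0 (show (0 : ℝ) < 1 / 20 by norm_num)).and
    ((small (R + 3) (show (0 : ℝ) < 1 / 5 by norm_num)).and (small 2 (sub_pos.2 hM)))))))
  refine ⟨ε0, hε0, fun ε e C hC hC' => ?_⟩
  obtain ⟨e2, e3, e4, e5, e6, e7⟩ := hε e
  have e8 : ε ≤ 1 := by nlinarith [e.1]
  choose B hB using fun σ => end_k (N := N) ha hM h1 hC hC' σ A hθ'.1 (by linarith) hδ.le
    (by linarith) e.1.le (by nlinarith [e.1]) e5.le e6.le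
    (by linarith [(le_max_right _ _).trans hR]) (by linarith) e1 (H ε1 le_rfl)
    fun p hp k => (pr r1 θ h1.le p hp k).trans ((le_max_left _ _).trans hR)
  let I := {j : Dat × Tg × R4 // j.2.1.Is ⟨M, a, r1, θ, R, s, δ, ε, N⟩ j.1 ∧ j.2.2 ∈ C ∧
    j.2.2.1 + |kx M a j.2.2| ≤ 2 * θ * mf M a (kr M a j.2.2)}
  have D := fun j : I => (hC' _ j.2.2.1).1
  have m : ∀ j : I, j.1.2.2 ∈ {P | xs P ≠ 0 ∧ 0 ≤ P.1 ∧ r0 ≤ kr M a P ∧
      P.1 + |kx M a P| ≤ 2 * θ * mf M a (kr M a P)} := fun j =>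
    ⟨(D j).1, (D j).2.1, (hC' _ j.2.2.1).2, j.2.2.2⟩
  have b := fun j : I => j.2.1.mid _ (D j) j.2.2.2
  have l1 := min_le_left c1 c2
  have l2 := min_le_right c1 c2
  have F := fix_fm (x := fun j : I => j.1.2.2) (g := fun j => j.1.2.1.g) (Z := XK M a)
    (Y := fun j => j.1.2.1.Xf j.1.2.2) hS (half_pos (lt_min c10 c20)) (fun y hy =>
      ⟨sb_lor (gK_lor hM) (dk y hy), (P354YR.s_XK (dk y hy)).continuousAt, (tm y hy).2.1⟩) m
    (fun j => sb_lor j.2.1.lor (j.2.1.sub (D j))) (fun j => j.2.1.lor.met.symm _ (j.2.1.sub (D j)))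
    b (fun j v hv => by
      nlinarith [hc1 _ (m j) v hv, (abs_le.1 (P354YJ.bd0 (b j) v)).1, sq_nonneg ‖v‖])
    (fun j => by
      have := (le_div_iff₀ (by positivity)).1 (hc2 _ (m j))
      nlinarith [(abs_le.1 (P354YJ.bd0 (b j) (XK M a j.1.2.2))).2, sq_nonneg ‖XK M a j.1.2.2‖])
    fun j => ⟨j.2.1.lor.tl _ (j.2.1.sub (D j)), (j.2.1.box _ ⟨D j, Or.inr j.2.2.2⟩).1⟩
  obtain ⟨C4, c4, h4⟩ := bd_of_oj F.sb F.bd
  obtain ⟨K, hK⟩ := F.qp
  obtain ⟨K', hK'⟩ : ∃ K', K' = 1 + |B true| + |B false| + C4 + |K| := ⟨_, rfl⟩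
  have a1 := abs_nonneg (B true)
  have a2 := abs_nonneg (B false)
  have a3 := abs_nonneg K
  have k1 : 1 ≤ K' := by linarith
  have k2 : ∀ σ, B σ ≤ K' := fun σ => by
    cases σ <;> linarith [le_abs_self (B true), le_abs_self (B false)]
  let J := {j : Dat × Tg × R4 // j.2.1.Is ⟨M, a, r1, θ, R, s, δ, ε, N⟩ j.1 ∧ j.2.2 ∈ C}
  have o : ∀ σ, Oj 2 (fun j : J => j.1.2.2) (fun j => Fe G ρ M a θ ε R σ (j.1.2.1.q' σ)) 1 :=
    fun σ => .of1 (fun j => (hB σ _ _ j.2.1 _ j.2.2).1) fun j => (hB σ _ _ j.2.1 _ j.2.2).2.1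
  have O := (Oj.fix hC (F := fun y => y.1) (fun _ _ => contDiffAt_fst) fun j : J => j.2.2).add
    (oj_mul (.cst (2 * K')) ((o true).add (o false)))
  obtain ⟨C5, c5, h5⟩ := O.bd
  have i0 : 0 < K' := by linarith
  refine ⟨K' + C5, K'⁻¹, inv_pos.2 i0, fun d T h => ⟨fun y => y.1 + 2 * K' *
    (Fe G ρ M a θ ε R true (T.q' true) y + Fe G ρ M a θ ε R false (T.q' false) y),
    fun p hp => ?_⟩⟩
  have df := fun σ => (hB σ d T h p hp).1.differentiableAt (by simp)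
  have nn := fun σ => (hB σ d T h p hp).2.2.1
  have key : Bd N T.g p K' ∧ Qp K' (T.g p) (fderiv ℝ (fun y => y.1 + 2 * K' *
      (Fe G ρ M a θ ε R true (T.q' true) y + Fe G ρ M a θ ε R false (T.q' false) y)) p)
      (T.Xf p) := by
    rw [show fderiv ℝ _ p = _ from (hasFDerivAt_fst.fun_add
      (((df true).hasFDerivAt.fun_add (df false).hasFDerivAt).const_mul (2 * K'))).fderiv]
    by_cases k : ∃ σ, 2 * θ ≤ vs M a σ p
    · obtain ⟨σ, k⟩ := k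
      obtain ⟨b1, b2⟩ := (hB σ d T h p hp).2.2.2 k
      refine ⟨bd_mono b1 le_rfl (k2 σ), k1, (b2.mono (k2 σ)).nd, fun w w1 w2 =>
        le_up (norm_nonneg _) le_rfl ?_ k1⟩
      have n1 := (b2.mono (k2 σ)).cone w w1 w2
      have n2 := (abs_le.1 (show |w.1| ≤ ‖w‖ from norm_fst_le w)).1
      have n3 := mul_nonneg i0.le (nn (!σ) w w1 w2)
      simp only [_root_.add_apply, _root_.smul_apply, smul_eq_mul, ContinuousLinearMap.coe_fst']
      cases σ <;> simp only [Bool.not_true, Bool.not_false] at n3 <;> linarith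
    · let j : I := ⟨(d, T, p), h, hp, vs_le h1 (hC' p hp).1 fun σ => (not_le.1 fun j => k ⟨σ, j⟩).le⟩
      have b2 := (hK j).mono (K' := K') (by linarith [le_abs_self K])
      rw [fderiv_fst] at b2
      refine ⟨bd_mono (h4 j) le_rfl (by simp only [Pi.one_apply]; linarith), k1, b2.nd,
        fun w w1 w2 => (b2.cone w w1 w2).trans (mul_le_mul_of_nonneg_left ?_ i0.le)⟩
      simp only [_root_.add_apply, _root_.smul_apply, smul_eq_mul]
      linarith [mul_nonneg i0.le (nn true w w1 w2), mul_nonneg i0.le (nn false w w1 w2)]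
  exact ⟨bd_mono key.1 le_rfl (by linarith), fun v => (key.2.nd v).imp fun _ k =>
    ⟨k.1, (inv_mul_le_iff₀ i0).2 k.2⟩, ⟨(O.sm ⟨(d, T, p), h, hp⟩).of_le (le_inf 2),
      (h5 ⟨(d, T, p), h, hp⟩).mono le_rfl (by simp only [Pi.one_apply]; linarith)⟩,
    fun w w1 w2 => (inv_mul_le_iff₀ i0).2 (key.2.cone w w1 w2)⟩

end Vale.Agent.P354PR
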